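import Mathlib

/-!
# P291, regular layer, block R9: the abstract induction over walls

`P s d` stands for the operators `M[F]`, `F` supported on sets of charge `+d` (`s = true`) or `-d`
(`s = false`); `nu0 d` for `nu · d = 0`; `G d` for `1 ∈ J_D(d)` (unframed) and `H d` for
`1 ∈ J_D(v - d; w)` (framed).
-/

set_option linter.unusedSectionVars false

namespace Vale.Agent.P291

namespace Wall

variable {T D : Type*} [CommRing T] [AddCommMonoid D]

/-- products of elements of `P s d_i`, `sum d_i = d`, satisfying `p` -/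
def Pr (P : D → Set T) (p : D → Prop) (d : D) : Set T :=
  {y | ∃ l : Multiset (D × T), (∀ a ∈ l, p a.1 ∧ a.2 ∈ P a.1) ∧ (l.map Prod.fst).sum = d ∧
    y = (l.map Prod.snd).prod}

theorem of_mem_sup {J K : Ideal T} {S : Set T} (hJ : J ≤ K) (hS : ∀ y ∈ S, y ∈ K) {x : T}
    (hx : x ∈ J ⊔ Ideal.span S) : x ∈ K := by
  have h : J ⊔ Ideal.span S ≤ K := sup_le hJ (Ideal.span_le.2 hS)
  exact h hx

theorem one_mem_Pr (P : D → Set T) (p : D → Prop) : (1 : T) ∈ Pr P p 0 :=
  ⟨0, by simp, by simp, by simp⟩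

theorem mul_mem_Pr {P : D → Set T} {p : D → Prop} {a b : D} {x y : T} (hx : x ∈ Pr P p a)
    (hy : y ∈ Pr P p b) : x * y ∈ Pr P p (a + b) := by
  obtain ⟨l, hl, hs, rfl⟩ := hx
  obtain ⟨l', hl', hs', rfl⟩ := hy
  refine ⟨l + l', ?_, by simp [hs, hs'], by simp⟩
  intro c hc
  rcases Multiset.mem_add.1 hc with h | h
  · exact hl c h
  · exact hl' c h

theorem mul_mem_sup (J : Ideal T) {P : D → Set T} {p : D → Prop} {a b : D} {x y : T}
    (hx : x ∈ J ⊔ Ideal.span (Pr P p a)) (hy : y ∈ J ⊔ Ideal.span (Pr P p b)) :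
    x * y ∈ J ⊔ Ideal.span (Pr P p (a + b)) := by
  obtain ⟨j, hj, u, hu, rfl⟩ := Submodule.mem_sup.1 hx
  obtain ⟨k, hk, w, hw, rfl⟩ := Submodule.mem_sup.1 hy
  have h1 : u * w ∈ Ideal.span (Pr P p (a + b)) := by
    have h2 : u * w ∈ Ideal.span (Pr P p a) * Ideal.span (Pr P p b) := Ideal.mul_mem_mul hu hw
    rw [Ideal.span_mul_span'] at h2
    refine Ideal.span_mono ?_ h2
    rintro z ⟨c, hc, d, hd, rfl⟩
    exact mul_mem_Pr hc hd
  have h3 : (j + u) * (k + w) = (j * (k + w) + u * k) + u * w := by ring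
  rw [h3]
  exact Submodule.add_mem_sup (J.add_mem (J.mul_mem_right _ hj) (J.mul_mem_left _ hk)) h1

theorem prod_mem_sup (J : Ideal T) {P : D → Set T} {p : D → Prop} (l : Multiset (D × T))
    (hl : ∀ a ∈ l, a.2 ∈ J ⊔ Ideal.span (Pr P p a.1)) :
    (l.map Prod.snd).prod ∈ J ⊔ Ideal.span (Pr P p (l.map Prod.fst).sum) := by
  induction l using Multiset.induction_on with
  | empty =>
    simp only [Multiset.map_zero, Multiset.prod_zero, Multiset.sum_zero]
    exact Submodule.mem_sup_right (Ideal.subset_span (one_mem_Pr P p))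
  | cons a s ih =>
    simp only [Multiset.map_cons, Multiset.prod_cons, Multiset.sum_cons]
    exact mul_mem_sup J (hl a (Multiset.mem_cons_self _ _))
      (ih fun b hb => hl b (Multiset.mem_cons_of_mem hb))

variable (J : Ideal T) (ok : D → Prop) (hok : ∀ a b, ok (a + b) → ok a) (sz : D →+ ℕ)
  (hsz : ∀ d, ok d → sz d = 0 → d = 0) (N : ℕ) (hN : ∀ d, ok d → sz d ≤ N)
  (nu0 : D → Prop) (P : Bool → D → Set T)
  (hne : ∀ s d, ok d → ¬ nu0 d → ∀ x ∈ P s d, x ∈ J) (G H : D → Prop)
  (h1 : ∀ s d, ok d → d ≠ 0 → G d → ∀ x ∈ P s d, x ∈ J ⊔ Ideal.span {y | ∃ l : Multiset (D × T),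
    2 ≤ Multiset.card l ∧ (∀ a ∈ l, a.1 ≠ 0 ∧ a.2 ∈ P s a.1) ∧ (l.map Prod.fst).sum = d ∧
      y = (l.map Prod.snd).prod})
  (h2 : ∀ s d, ok d → H d → ∀ x ∈ P s d, x ∈ J ⊔ Ideal.span {y | ∃ l : Multiset (D × T), ∃ x0 : T,
    (∀ a ∈ l, a.1 ≠ 0 ∧ a.2 ∈ P (!s) a.1) ∧ (l.map Prod.fst).sum ≠ 0 ∧
      ok (d + (l.map Prod.fst).sum) ∧ x0 ∈ P s (d + (l.map Prod.fst).sum) ∧
      y = x0 * (l.map Prod.snd).prod})
  (hreg : ∀ l : Multiset D, l ≠ 0 → (∀ d ∈ l, d ≠ 0 ∧ nu0 d) → ok l.sum →
    (∃ d ∈ l, G d) ∨ H l.sum)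

include hok in
theorem ok_of_mem {l : Multiset (D × T)} (h : ok (l.map Prod.fst).sum) {a : D × T} (ha : a ∈ l) :
    ok a.1 := by
  obtain ⟨l', rfl⟩ := Multiset.exists_cons_of_mem ha
  rw [Multiset.map_cons, Multiset.sum_cons] at h
  exact hok _ _ h

include hok hsz hne h1 in
/-- first step: expansion in terms of good charges -/
theorem step1 (s : Bool) : ∀ n : ℕ, ∀ d, sz d = n → ok d → d ≠ 0 → ∀ x ∈ P s d,
    x ∈ J ⊔ Ideal.span (Pr (P s) (fun d => d ≠ 0 ∧ nu0 d ∧ ¬ G d) d) := by
  intro n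
  induction n using Nat.strong_induction_on with
  | _ n ih =>
    intro d hd hokd hd0 x hx
    by_cases hnu : nu0 d
    · by_cases hG : G d
      · refine of_mem_sup le_sup_left ?_ (h1 s d hokd hd0 hG x hx)
        rintro y ⟨l, hcard, hl, hs, rfl⟩
        have key : ∀ a ∈ l, a.2 ∈
            J ⊔ Ideal.span (Pr (P s) (fun d => d ≠ 0 ∧ nu0 d ∧ ¬ G d) a.1) := by
          intro a ha
          have hoka : ok a.1 := ok_of_mem ok hok (by rw [hs]; exact hokd) ha
          refine ih (sz a.1) ?_ a.1 rfl hoka (hl a ha).1 a.2 (hl a ha).2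
          obtain ⟨l', rfl⟩ := Multiset.exists_cons_of_mem ha
          have hne' : l' ≠ 0 := by
            rintro rfl
            simp at hcard
          obtain ⟨b, hb⟩ := Multiset.exists_mem_of_ne_zero hne'
          have hb' : b ∈ a ::ₘ l' := Multiset.mem_cons_of_mem hb
          have hokb : ok b.1 := ok_of_mem ok hok (by rw [hs]; exact hokd) hb'
          have hbpos : 0 < sz b.1 :=
            Nat.pos_of_ne_zero fun h => (hl b hb').1 (hsz _ hokb h)
          obtain ⟨l'', rfl⟩ := Multiset.exists_cons_of_mem hb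
          rw [Multiset.map_cons, Multiset.sum_cons, Multiset.map_cons, Multiset.sum_cons] at hs
          have : sz a.1 + (sz b.1 + sz (l''.map Prod.fst).sum) = n := by
            rw [← map_add, ← map_add, hs, hd]
          omega
        have := prod_mem_sup J l key
        rwa [hs] at this
      · refine Submodule.mem_sup_right (Ideal.subset_span ⟨{(d, x)}, ?_, by simp, by simp⟩)
        intro a ha
        rw [Multiset.mem_singleton] at ha
        subst ha
        exact ⟨⟨hd0, hnu, hG⟩, hx⟩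
    · exact Submodule.mem_sup_left (hne s d hokd hnu x hx)

include hok hsz hN hne h1 h2 hreg in
/-- second step: descending induction -/
theorem step2 (s : Bool) : ∀ m : ℕ, ∀ (c : D) (l : Multiset (D × T)),
    N - sz (c + (l.map Prod.fst).sum) = m → c ≠ 0 → nu0 c → ¬ G c →
    (∀ a ∈ l, (a.1 ≠ 0 ∧ nu0 a.1 ∧ ¬ G a.1) ∧ a.2 ∈ P (!s) a.1) →
    ok (c + (l.map Prod.fst).sum) → ∀ x ∈ P s (c + (l.map Prod.fst).sum),
    x * (l.map Prod.snd).prod ∈ J := by
  intro m
  induction m using Nat.strong_induction_on with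
  | _ m ih =>
    intro c l hm hc0 hcnu hcG hl hokn x hx
    have hH : H (c + (l.map Prod.fst).sum) := by
      have h := hreg (c ::ₘ l.map Prod.fst) (Multiset.cons_ne_zero) (by
        intro d hd
        rcases Multiset.mem_cons.1 hd with rfl | hd
        · exact ⟨hc0, hcnu⟩
        · obtain ⟨a, ha, rfl⟩ := Multiset.mem_map.1 hd
          exact ⟨(hl a ha).1.1, (hl a ha).1.2.1⟩) (by rw [Multiset.sum_cons]; exact hokn)
      rw [Multiset.sum_cons] at h
      rcases h with ⟨d, hd, hG⟩ | h
      · exfalso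
        rcases Multiset.mem_cons.1 hd with rfl | hd
        · exact hcG hG
        · obtain ⟨a, ha, rfl⟩ := Multiset.mem_map.1 hd
          exact (hl a ha).1.2.2 hG
      · exact h
    obtain ⟨j, hj, w, hw, rfl⟩ := Submodule.mem_sup.1 (h2 s _ hokn hH x hx)
    rw [add_mul]
    refine J.add_mem (J.mul_mem_right _ hj) ?_
    clear hx
    refine Submodule.span_induction (p := fun w _ => w * (l.map Prod.snd).prod ∈ J)
      ?_ ?_ ?_ ?_ hw
    · rintro y ⟨l', x0, hl', hg0, hokg, hx0, rfl⟩
      -- expand the new factors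
      have hokg' : ok (l'.map Prod.fst).sum := by
        rw [add_comm] at hokg; exact hok _ _ hokg
      have hprod : (l'.map Prod.snd).prod ∈
          J ⊔ Ideal.span (Pr (P (!s)) (fun d => d ≠ 0 ∧ nu0 d ∧ ¬ G d) (l'.map Prod.fst).sum) := by
        refine prod_mem_sup J l' fun a ha => ?_
        have hoka : ok a.1 := ok_of_mem ok hok hokg' ha
        exact step1 J ok hok sz hsz nu0 P hne G h1 (!s) _ a.1 rfl hoka (hl' a ha).1 a.2
          (hl' a ha).2
      obtain ⟨j', hj', w', hw', hsum⟩ := Submodule.mem_sup.1 hprod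
      rw [← hsum]
      have e1 : x0 * (j' + w') * (l.map Prod.snd).prod =
          j' * (x0 * (l.map Prod.snd).prod) + w' * (x0 * (l.map Prod.snd).prod) := by ring
      rw [e1]
      refine J.add_mem (J.mul_mem_right _ hj') ?_
      refine Submodule.span_induction (p := fun w' _ => w' * (x0 * (l.map Prod.snd).prod) ∈ J)
        ?_ ?_ ?_ ?_ hw'
      · rintro y ⟨l2, hl2, hs2, rfl⟩
        have hgpos : 0 < sz (l'.map Prod.fst).sum :=
          Nat.pos_of_ne_zero fun h => hg0 (hsz _ hokg' h)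
        have e2 : c + ((l + l2).map Prod.fst).sum =
            c + (l.map Prod.fst).sum + (l'.map Prod.fst).sum := by
          rw [Multiset.map_add, Multiset.sum_add, hs2, add_assoc]
        have hlt : N - sz (c + ((l + l2).map Prod.fst).sum) < m := by
          have h3 : sz (c + ((l + l2).map Prod.fst).sum) =
              sz (c + (l.map Prod.fst).sum) + sz (l'.map Prod.fst).sum := by
            rw [e2, map_add]
          have h4 := hN _ hokg
          rw [map_add] at h4
          omega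
        have := ih _ hlt c (l + l2) rfl hc0 hcnu hcG (by
          intro a ha
          rcases Multiset.mem_add.1 ha with h | h
          · exact hl a h
          · exact hl2 a h) (by rw [e2]; exact hokg) x0 (by rw [e2]; exact hx0)
        rw [Multiset.map_add, Multiset.prod_add] at this
        have e3 : (l2.map Prod.snd).prod * (x0 * (l.map Prod.snd).prod) =
            x0 * ((l.map Prod.snd).prod * (l2.map Prod.snd).prod) := by ring
        rw [e3]
        exact this
      · rw [zero_mul]; exact J.zero_mem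
      · intro u v _ _ hu hv
        rw [add_mul]; exact J.add_mem hu hv
      · intro r u _ hu
        rw [smul_mul_assoc]; exact J.smul_mem r hu
    · rw [zero_mul]; exact J.zero_mem
    · intro u v _ _ hu hv
      rw [add_mul]; exact J.add_mem hu hv
    · intro r u _ hu
      rw [smul_mul_assoc]; exact J.smul_mem r hu

include hok hsz hN hne h1 h2 hreg in
/-- The abstract wall induction. -/
theorem wall (s : Bool) (d : D) (hd : ok d) (hd0 : d ≠ 0) {x : T} (hx : x ∈ P s d) : x ∈ J := by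
  refine of_mem_sup le_rfl ?_ (step1 J ok hok sz hsz nu0 P hne G h1 s _ d rfl hd hd0 x hx)
  rintro y ⟨l, hl, hs, rfl⟩
  have hl0 : l ≠ 0 := by
    rintro rfl
    apply hd0
    rw [← hs]; simp
  obtain ⟨a, ha⟩ := Multiset.exists_mem_of_ne_zero hl0
  have hoka : ok a.1 := ok_of_mem ok hok (by rw [hs]; exact hd) ha
  have h3 : a.2 ∈ J := by
    have := step2 J ok hok sz hsz N hN nu0 P hne G H h1 h2 hreg s _ a.1 0 rfl (hl a ha).1.1
      (hl a ha).1.2.1 (hl a ha).1.2.2 (by simp) (by simpa using hoka) a.2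
      (by simpa using (hl a ha).2)
    simpa using this
  obtain ⟨l', rfl⟩ := Multiset.exists_cons_of_mem ha
  rw [Multiset.map_cons, Multiset.prod_cons]
  exact J.mul_mem_right _ h3

end Wall

end Vale.Agent.P291
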