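import Vale.Agent.P291.QBlk
import Vale.Agent.P291.TBlk

/-!
# P291, regular layer, block R8: the involution `theta`

`theta (u^lam) = chr lam * u^(-lam)` with the character `chr lam = e(-lam)/e(lam)`.  It is the
identity on rational functions, maps `M[F]` to `M[F ∘ complement]` and preserves `A` and `II`.
-/

set_option linter.unusedSectionVars false

open MvPolynomial

namespace Vale.Agent.P291

namespace TH

variable {I E B Λ : Type*} [Fintype E] [DecidableEq I] [Fintype B] [DecidableEq B] [CommRing Λ]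
  [IsDomain Λ]
variable (Q : QD I E B Λ)

theorem zpow_aux {K : Type*} [Field K] {x : K} {d : ℤ} (h : x ≠ 0 ∨ d = 0) :
    x ^ (-d) * x ^ d.toNat = x ^ (-d).toNat := by
  rcases h with h | rfl
  · rw [← zpow_natCast, ← zpow_natCast, ← zpow_add₀ h]
    congr 1
    omega
  · simp

/-- the character `e(-lam)/e(lam)` -/
noncomputable def chr (lam : B → ℤ) : KK B Λ :=
  (∏ p ∈ Q.Wt, toK (Q.xi p) ^ (-(lam p.2.1 - ext lam p.2.2))) *
  (∏ p ∈ Q.Prs, toK (X p.1 - X p.2 : SS B Λ) ^ (lam p.1 - lam p.2))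

theorem ext_neg' (lam : B → ℤ) (o : Option B) : ext (-lam) o = - ext lam o := by
  cases o <;> simp [ext]

theorem ext_add' (lam mu : B → ℤ) (o : Option B) : ext (lam + mu) o = ext lam o + ext mu o := by
  cases o <;> simp [ext]

theorem xi_or (p : E × B × Option B) (lam : B → ℤ) :
    toK (Q.xi p) ≠ 0 ∨ lam p.2.1 - ext lam p.2.2 = 0 := by
  by_cases h : some p.2.1 = p.2.2
  · right; rw [← h]; simp [ext]
  · left; exact toK_ne_zero (xi_ne_zero Q h)

theorem X_or (p : B × B) (lam : B → ℤ) :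
    toK (X p.1 - X p.2 : SS B Λ) ≠ 0 ∨ lam p.1 - lam p.2 = 0 := by
  by_cases h : p.1 = p.2
  · right; rw [h]; simp
  · left; exact toK_ne_zero (X_sub_X_ne_zero h)

theorem toK_rho (lam : B → ℤ) :
    toK (Q.rho lam) = ∏ p ∈ Q.Wt, toK (Q.xi p) ^ (lam p.2.1 - ext lam p.2.2).toNat := by
  rw [QD.rho, toK, map_prod]
  exact Finset.prod_congr rfl fun p _ => map_pow _ _ _

theorem toK_den (lam : B → ℤ) :
    toK (Q.den lam) =
      ∏ p ∈ Q.Prs, toK (X p.1 - X p.2 : SS B Λ) ^ (lam p.1 - lam p.2).toNat := by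
  rw [QD.den, toK, map_prod]
  exact Finset.prod_congr rfl fun p _ => map_pow _ _ _

theorem chr_mul_e (lam : B → ℤ) : chr Q lam * Q.e lam = Q.e (-lam) := by
  have h1 : (∏ p ∈ Q.Wt, toK (Q.xi p) ^ (-(lam p.2.1 - ext lam p.2.2))) * toK (Q.rho lam) =
      toK (Q.rho (-lam)) := by
    rw [toK_rho, toK_rho, ← Finset.prod_mul_distrib]
    refine Finset.prod_congr rfl fun p _ => ?_
    rw [zpow_aux (xi_or Q p lam)]
    congr 2
    rw [Pi.neg_apply, ext_neg']; ring
  have h2 : (∏ p ∈ Q.Prs, toK (X p.1 - X p.2 : SS B Λ) ^ (lam p.1 - lam p.2)) *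
      toK (Q.den (-lam)) = toK (Q.den lam) := by
    rw [toK_den, toK_den, ← Finset.prod_mul_distrib]
    refine Finset.prod_congr rfl fun p _ => ?_
    have := zpow_aux (x := toK (X p.1 - X p.2 : SS B Λ)) (d := (-lam) p.1 - (-lam) p.2)
      (X_or p (-lam))
    have e1 : -((-lam) p.1 - (-lam) p.2) = lam p.1 - lam p.2 := by
      simp only [Pi.neg_apply]; ring
    rw [e1] at this
    exact this
  have hd1 : toK (Q.den lam) ≠ 0 := toK_ne_zero (den_ne_zero Q lam)
  have hd2 : toK (Q.den (-lam)) ≠ 0 := toK_ne_zero (den_ne_zero Q (-lam))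
  rw [QD.e, QD.e, chr, ← h1, eq_div_iff hd2]
  rw [mul_div_assoc', div_mul_eq_mul_div, div_eq_iff hd1]
  rw [← h2]
  ring

theorem chr_zero : chr Q 0 = 1 := by
  simp [chr, ext_zero]

theorem chr_add (lam mu : B → ℤ) : chr Q (lam + mu) = chr Q lam * chr Q mu := by
  rw [chr, chr, chr]
  have h1 : (∏ p ∈ Q.Wt, toK (Q.xi p) ^ (-((lam + mu) p.2.1 - ext (lam + mu) p.2.2))) =
      (∏ p ∈ Q.Wt, toK (Q.xi p) ^ (-(lam p.2.1 - ext lam p.2.2))) *
      (∏ p ∈ Q.Wt, toK (Q.xi p) ^ (-(mu p.2.1 - ext mu p.2.2))) := by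
    rw [← Finset.prod_mul_distrib]
    refine Finset.prod_congr rfl fun p _ => ?_
    have e1 : -((lam + mu) p.2.1 - ext (lam + mu) p.2.2) =
        -(lam p.2.1 - ext lam p.2.2) + -(mu p.2.1 - ext mu p.2.2) := by
      rw [Pi.add_apply, ext_add']; ring
    rw [e1, zpow_add']
    by_cases h : some p.2.1 = p.2.2
    · right; right
      rw [← h]; simp [ext]
    · left; exact toK_ne_zero (xi_ne_zero Q h)
  have h2 : (∏ p ∈ Q.Prs, toK (X p.1 - X p.2 : SS B Λ) ^ ((lam + mu) p.1 - (lam + mu) p.2)) =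
      (∏ p ∈ Q.Prs, toK (X p.1 - X p.2 : SS B Λ) ^ (lam p.1 - lam p.2)) *
      (∏ p ∈ Q.Prs, toK (X p.1 - X p.2 : SS B Λ) ^ (mu p.1 - mu p.2)) := by
    rw [← Finset.prod_mul_distrib]
    refine Finset.prod_congr rfl fun p _ => ?_
    have e1 : (lam + mu) p.1 - (lam + mu) p.2 = (lam p.1 - lam p.2) + (mu p.1 - mu p.2) := by
      simp only [Pi.add_apply]; ring
    rw [e1, zpow_add']
    by_cases h : p.1 = p.2
    · right; right
      rw [h]; simp
    · left; exact toK_ne_zero (X_sub_X_ne_zero h)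
  rw [h1, h2]
  ring

theorem chr_neg_mul (lam : B → ℤ) : chr Q (-lam) * chr Q lam = 1 := by
  rw [← chr_add, neg_add_cancel, chr_zero]

theorem chr_ne_zero (lam : B → ℤ) : chr Q lam ≠ 0 := fun h => by
  have := chr_neg_mul Q lam
  rw [h, mul_zero] at this
  exact zero_ne_one this

/-- `lam ↦ chr lam u^{-lam}` as a monoid homomorphism -/
noncomputable def thetaHom : Multiplicative (B → ℤ) →* AA B Λ where
  toFun lam := AddMonoidAlgebra.single (-lam.toAdd) (chr Q lam.toAdd)
  map_one' := by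
    rw [toAdd_one, neg_zero, chr_zero, AddMonoidAlgebra.one_def]
  map_mul' a b := by
    rw [toAdd_mul, chr_add, AddMonoidAlgebra.single_mul_single]
    congr 1
    abel

/-- the involution -/
noncomputable def theta : AA B Λ →ₐ[KK B Λ] AA B Λ :=
  AddMonoidAlgebra.lift (KK B Λ) (AA B Λ) (B → ℤ) (thetaHom Q)

theorem theta_single (lam : B → ℤ) (c : KK B Λ) :
    theta Q (AddMonoidAlgebra.single lam c) = AddMonoidAlgebra.single (-lam) (c * chr Q lam) := by
  rw [theta, AddMonoidAlgebra.lift_single]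
  show c • AddMonoidAlgebra.single (-lam) (chr Q lam) = _
  rw [AddMonoidAlgebra.smul_single, smul_eq_mul]

theorem theta_theta (z : AA B Λ) : theta Q (theta Q z) = z := by
  induction z using AddMonoidAlgebra.induction_linear with
  | zero => simp
  | add x y hx hy => rw [map_add, map_add, hx, hy]
  | single m r =>
    rw [theta_single, theta_single, neg_neg, mul_assoc, mul_comm (chr Q m), chr_neg_mul, mul_one]

theorem theta_coeff (z : AA B Λ) (lam : B → ℤ) :
    (theta Q z).coeff lam = z.coeff (-lam) * chr Q (-lam) := by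
  induction z using AddMonoidAlgebra.induction_linear with
  | zero => simp
  | add x y hx hy =>
    rw [map_add, AddMonoidAlgebra.coeff_add, AddMonoidAlgebra.coeff_add, Finsupp.add_apply,
      Finsupp.add_apply, hx, hy, add_mul]
  | single m r =>
    rw [theta_single, AddMonoidAlgebra.coeff_single, AddMonoidAlgebra.coeff_single]
    by_cases h : m = -lam
    · rw [h, neg_neg, Finsupp.single_eq_same, Finsupp.single_eq_same]
    · rw [Finsupp.single_eq_of_ne (Ne.symm h), Finsupp.single_eq_of_ne (fun h' => h (by rw [h', neg_neg])),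
        zero_mul]

theorem theta_coeff_zero (z : AA B Λ) : (theta Q z).coeff 0 = z.coeff 0 := by
  rw [theta_coeff, neg_zero, chr_zero, mul_one]

theorem theta_cst (f : SS B Λ) : theta Q (QD.cst f) = QD.cst f := by
  rw [QD.cst, theta_single, neg_zero, chr_zero, mul_one]

theorem lamV_compl (V : Finset (Option B)) : lamV Vᶜ = - lamV V := by
  funext b
  simp only [lamV, Finset.mem_compl, Pi.neg_apply]
  by_cases h1 : some b ∈ V <;> by_cases h2 : (none : Option B) ∈ V <;> simp [h1, h2]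

theorem vact_compl (σ : Equiv.Perm B) (V : Finset (Option B)) : vact σ Vᶜ = (vact σ V)ᶜ := by
  ext o
  simp only [vact, Finset.mem_map_equiv, Finset.mem_compl]

/-- complement of a dressing -/
def cp {α : Type*} (F : Finset (Option B) → α) : Finset (Option B) → α := fun V => F Vᶜ

theorem cp_cp {α : Type*} (F : Finset (Option B) → α) : cp (cp F) = F := by
  funext V; simp [cp]

theorem cp_mem {F : Finset (Option B) → SS B Λ} (hF : F ∈ Q.Eqv) : cp F ∈ Q.Eqv := by
  intro σ hσ V
  rw [cp, ← vact_compl, hF σ hσ]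
  rfl

theorem theta_M (F : Finset (Option B) → SS B Λ) : theta Q (Q.M F) = Q.M (cp F) := by
  rw [QD.M, QD.M, map_sum]
  have hinv : Function.Involutive (compl : Finset (Option B) → Finset (Option B)) := compl_involutive
  rw [← Equiv.sum_comp (Function.Involutive.toPerm compl hinv)
    (fun V => AddMonoidAlgebra.single (lamV V) (toK (cp F V) * Q.e (lamV V)))]
  refine Finset.sum_congr rfl fun V _ => ?_
  show _ = AddMonoidAlgebra.single (lamV Vᶜ) (toK (cp F Vᶜ) * Q.e (lamV Vᶜ))
  rw [theta_single, lamV_compl, cp, compl_compl, ← chr_mul_e]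
  congr 1
  ring

theorem theta_algebraMap (c : Λ) : theta Q (algebraMap Λ (AA B Λ) c) = algebraMap Λ (AA B Λ) c := by
  rw [IsScalarTower.algebraMap_apply Λ (KK B Λ) (AA B Λ)]
  exact AlgHom.commutes _ _

theorem theta_smul (c : Λ) (z : AA B Λ) : theta Q (c • z) = c • theta Q z := by
  rw [Algebra.smul_def, map_mul, theta_algebraMap, ← Algebra.smul_def]

theorem theta_mem_A {z : AA B Λ} (hz : z ∈ Q.A) : theta Q z ∈ Q.A := by
  induction hz using Algebra.adjoin_induction with
  | mem x hx =>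
    obtain ⟨F, hF, rfl⟩ := hx
    rw [theta_M]
    exact TB.M_mem Q (cp_mem Q hF)
  | algebraMap r =>
    rw [theta_algebraMap]
    exact algebraMap_mem _ r
  | add x y _ _ hx hy => rw [map_add]; exact add_mem hx hy
  | mul x y _ _ hx hy => rw [map_mul]; exact mul_mem hx hy

theorem theta_mem_A_iff {z : AA B Λ} : theta Q z ∈ Q.A ↔ z ∈ Q.A :=
  ⟨fun h => by rw [← theta_theta Q z]; exact theta_mem_A Q h, theta_mem_A Q⟩

theorem theta_mem_II {z : AA B Λ} (hz : z ∈ Q.II) : theta Q z ∈ Q.II := by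
  refine Submodule.span_induction (p := fun x _ => theta Q x ∈ Q.II) ?_ ?_ ?_ ?_ hz
  · rintro x ⟨F, hF, h0, h1, rfl⟩
    rw [theta_M]
    refine Submodule.subset_span ⟨cp F, cp_mem Q hF, ?_, ?_, rfl⟩
    · rw [cp, Finset.compl_empty, h1]
    · rw [cp, Finset.compl_univ, h0]
  · rw [map_zero]; exact Submodule.zero_mem _
  · intro x y _ _ hx hy
    rw [map_add]; exact Submodule.add_mem _ hx hy
  · intro a x _ hx
    have h1 : a • x = (a : AA B Λ) * x := rfl
    rw [h1, map_mul]
    exact TB.II_mul_mem Q (theta_mem_A Q a.2) hx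

theorem theta_mem_II_iff {z : AA B Λ} : theta Q z ∈ Q.II ↔ z ∈ Q.II :=
  ⟨fun h => by rw [← theta_theta Q z]; exact theta_mem_II Q h, theta_mem_II Q⟩

end TH

end Vale.Agent.P291
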