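import Vale.Agent.P291.Core

/-!
# P291, stage HPX: directed cut ideals: torsion-freeness, removal of an edge, intersection

An edge is a triple `e = (t, hd, m)` with tail a box `t`, head a box or the framing box (`none`)
and form `x_t - x_hd + m` (`x_none = 0`).  For a multiset `L` of edges and a set `U` of boxes
`Y L U` is the product of the forms of the edges leaving `U`; `I V L` is the ideal generated by the
`Y L U` with `U` a nonempty subset of `V`.
-/

set_option linter.unusedSectionVars false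

open MvPolynomial

namespace Vale.Agent.P291

namespace Cut

variable {B Λ : Type*} [DecidableEq B] [CommRing Λ]

/-- edges: tail, head, constant -/
abbrev Ed (B Λ : Type*) := B × Option B × Λ

/-- the form of an edge -/
noncomputable def frm (e : Ed B Λ) : MvPolynomial B Λ := X e.1 - xo Λ e.2.1 + C e.2.2

/-- the edge leaves `U` -/
def Lv (U : Finset B) (e : Ed B Λ) : Prop := e.1 ∈ U ∧ ∀ b ∈ U, e.2.1 ≠ some b

instance (U : Finset B) : DecidablePred (Lv (Λ := Λ) U) := fun e =>
  inferInstanceAs (Decidable (e.1 ∈ U ∧ ∀ b ∈ U, e.2.1 ≠ some b))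

/-- the product of the forms of the edges leaving `U` -/
noncomputable def Y (L : Multiset (Ed B Λ)) (U : Finset B) : MvPolynomial B Λ :=
  ((L.filter (Lv U)).map frm).prod

/-- the directed cut ideal -/
noncomputable def I (V : Finset B) (L : Multiset (Ed B Λ)) : Ideal (MvPolynomial B Λ) :=
  Ideal.span {f | ∃ U ⊆ V, U.Nonempty ∧ f = Y L U}

/-- the edges that do not enter `u` -/
def minus (u : B) (L : Multiset (Ed B Λ)) : Multiset (Ed B Λ) := L.filter fun e => e.2.1 ≠ some u

theorem Y_mem {V U : Finset B} (L : Multiset (Ed B Λ)) (hU : U ⊆ V) (hn : U.Nonempty) :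
    Y L U ∈ I V L := Ideal.subset_span ⟨U, hU, hn, rfl⟩

theorem I_le {V : Finset B} {L : Multiset (Ed B Λ)} {J : Ideal (MvPolynomial B Λ)}
    (h : ∀ U ⊆ V, U.Nonempty → Y L U ∈ J) : I V L ≤ J := by
  refine Ideal.span_le.2 ?_
  rintro f ⟨U, hU, hn, rfl⟩
  exact h U hU hn

theorem Y_cons_of_lv {U : Finset B} {e : Ed B Λ} (L : Multiset (Ed B Λ)) (h : Lv U e) :
    Y (e ::ₘ L) U = frm e * Y L U := by
  unfold Y
  rw [Multiset.filter_cons_of_pos _ h, Multiset.map_cons, Multiset.prod_cons]

theorem Y_cons_of_not_lv {U : Finset B} {e : Ed B Λ} (L : Multiset (Ed B Λ)) (h : ¬ Lv U e) :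
    Y (e ::ₘ L) U = Y L U := by
  unfold Y
  rw [Multiset.filter_cons_of_neg _ h]

theorem Y_dvd_of_le {U : Finset B} {L L' : Multiset (Ed B Λ)} (h : L ≤ L') : Y L U ∣ Y L' U := by
  unfold Y
  exact Multiset.prod_dvd_prod_of_le (Multiset.map_le_map (Multiset.filter_le_filter _ h))

theorem I_anti {V : Finset B} {L L' : Multiset (Ed B Λ)} (h : L ≤ L') : I V L' ≤ I V L :=
  I_le fun U hU hn => (I V L).mem_of_dvd (Y_dvd_of_le h) (Y_mem L hU hn)

theorem I_mono {V V' : Finset B} (h : V ⊆ V') (L : Multiset (Ed B Λ)) : I V L ≤ I V' L :=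
  I_le fun U hU hn => Y_mem L (hU.trans h) hn

theorem I_empty (L : Multiset (Ed B Λ)) : I ∅ L = ⊥ := by
  rw [eq_bot_iff]
  refine I_le fun U hU hn => ?_
  rw [Finset.subset_empty.1 hU] at hn
  exact absurd hn (by simp)

/-- multiplication by the form of the additional edge -/
theorem frm_mul_mem {V : Finset B} {L : Multiset (Ed B Λ)} (e : Ed B Λ) {g : MvPolynomial B Λ}
    (hg : g ∈ I V L) : frm e * g ∈ I V (e ::ₘ L) := by
  refine Submodule.span_induction (p := fun g _ => frm e * g ∈ I V (e ::ₘ L)) ?_ ?_ ?_ ?_ hg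
  · rintro f ⟨U, hU, hn, rfl⟩
    by_cases h : Lv U e
    · rw [← Y_cons_of_lv L h]
      exact Y_mem _ hU hn
    · rw [← Y_cons_of_not_lv L h]
      exact Ideal.mul_mem_left _ _ (Y_mem _ hU hn)
  · rw [mul_zero]
    exact Ideal.zero_mem _
  · intro x y _ _ hx hy
    rw [mul_add]
    exact Ideal.add_mem _ hx hy
  · intro a x _ hx
    rw [smul_eq_mul, mul_left_comm]
    exact Ideal.mul_mem_left _ _ hx

theorem I_erase_le {V : Finset B} (L : Multiset (Ed B Λ)) (e : Ed B Λ) :
    I (V.erase e.1) L ≤ I V (e ::ₘ L) := by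
  refine I_le fun U hU hn => ?_
  have h : ¬ Lv U e := fun h => absurd (hU h.1) (by simp)
  rw [← Y_cons_of_not_lv L h]
  exact Y_mem _ (hU.trans (Finset.erase_subset _ _)) hn

/-- Every element of `I V (e :: L)` is `frm e * w + j` with `w ∈ I V L`, `j ∈ I (V - t) L`. -/
theorem split {V : Finset B} (L : Multiset (Ed B Λ)) (e : Ed B Λ) (h2 : ∀ b ∈ V, e.2.1 ≠ some b)
    {f : MvPolynomial B Λ} (hf : f ∈ I V (e ::ₘ L)) :
    ∃ w ∈ I V L, ∃ j ∈ I (V.erase e.1) L, f = frm e * w + j := by
  have key : I V (e ::ₘ L) ≤ (Ideal.span {frm e} * I V L) ⊔ I (V.erase e.1) L := by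
    refine I_le fun U hU hn => ?_
    by_cases ht : e.1 ∈ U
    · rw [Y_cons_of_lv L ⟨ht, fun b hb => h2 b (hU hb)⟩]
      exact Ideal.mem_sup_left (Ideal.mul_mem_mul (Ideal.mem_span_singleton_self _) (Y_mem L hU hn))
    · rw [Y_cons_of_not_lv L (fun h => ht h.1)]
      exact Ideal.mem_sup_right (Y_mem L (fun x hx => Finset.mem_erase.2
        ⟨fun hxe => ht (hxe ▸ hx), hU hx⟩) hn)
  obtain ⟨a, ha, j, hj, rfl⟩ := Submodule.mem_sup.1 (key hf)
  obtain ⟨w, hw, rfl⟩ := Ideal.mem_span_singleton_mul.1 ha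
  exact ⟨w, hw, j, hj, rfl⟩

/-! ### the contraction -/

/-- the substitution `x_t := x_hd - m` -/
noncomputable def sub (e : Ed B Λ) : MvPolynomial B Λ →ₐ[Λ] MvPolynomial B Λ :=
  aeval fun b => if b = e.1 then xo Λ e.2.1 - C e.2.2 else X b

/-- redirect the edges into `t` -/
def red (e : Ed B Λ) (e' : Ed B Λ) : Ed B Λ :=
  if e'.2.1 = some e.1 then (e'.1, e.2.1, e'.2.2 + e.2.2) else e'

theorem sub_X_of_ne (e : Ed B Λ) {b : B} (h : b ≠ e.1) : sub e (X b) = (X b : MvPolynomial B Λ) := by
  simp [sub, h]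

theorem sub_X_self (e : Ed B Λ) : sub e (X e.1) = xo Λ e.2.1 - C e.2.2 := by
  simp [sub]

theorem sub_C (e : Ed B Λ) (m : Λ) : sub e (C m) = (C m : MvPolynomial B Λ) := by
  rw [← MvPolynomial.algebraMap_eq, AlgHom.commutes]

theorem sub_xo_of_ne (e : Ed B Λ) {o : Option B} (h : o ≠ some e.1) :
    sub e (xo Λ o) = xo Λ o := by
  cases o with
  | none => simp [xo]
  | some b => exact sub_X_of_ne e (fun hb => h (by rw [hb]))

theorem sub_frm_self (e : Ed B Λ) (h : e.2.1 ≠ some e.1) : sub e (frm e) = 0 := by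
  unfold frm
  rw [map_add, map_sub, sub_X_self, sub_xo_of_ne e h, sub_C]
  ring

theorem sub_frm (e e' : Ed B Λ) (h : e'.1 ≠ e.1) : sub e (frm e') = frm (red e e') := by
  by_cases h2 : e'.2.1 = some e.1
  · have h3 : red e e' = (e'.1, e.2.1, e'.2.2 + e.2.2) := by simp [red, h2]
    rw [h3]
    unfold frm
    rw [map_add, map_sub, sub_X_of_ne e h, sub_C, h2]
    have : sub e (xo Λ (some e.1)) = xo Λ e.2.1 - C e.2.2 := sub_X_self e
    rw [this, C_add]
    ring
  · have h3 : red e e' = e' := by simp [red, h2]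
    rw [h3]
    unfold frm
    rw [map_add, map_sub, sub_X_of_ne e h, sub_C, sub_xo_of_ne e h2]

theorem lv_red {V U : Finset B} (e : Ed B Λ) (h2 : ∀ b ∈ V, e.2.1 ≠ some b) (ht : e.1 ∈ V)
    (hU : U ⊆ V.erase e.1) (e' : Ed B Λ) : Lv U (red e e') ↔ Lv U e' := by
  by_cases h : e'.2.1 = some e.1
  · have h3 : red e e' = (e'.1, e.2.1, e'.2.2 + e.2.2) := by simp [red, h]
    rw [h3]
    unfold Lv
    refine and_congr_right fun _ => ⟨fun _ b hb => ?_, fun _ b hb => ?_⟩
    · rw [h]
      intro hb'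
      exact absurd (hU hb) (by simp [← Option.some.inj hb'])
    · exact h2 b (Finset.mem_of_mem_erase (hU hb))
  · have h3 : red e e' = e' := by simp [red, h]
    rw [h3]

theorem sub_Y {V U : Finset B} (e : Ed B Λ) (h2 : ∀ b ∈ V, e.2.1 ≠ some b) (ht : e.1 ∈ V)
    (hU : U ⊆ V.erase e.1) (L : Multiset (Ed B Λ)) : sub e (Y L U) = Y (L.map (red e)) U := by
  unfold Y
  rw [Multiset.filter_map, Multiset.map_map, map_multiset_prod, Multiset.map_map]
  have h1 : L.filter (Lv U ∘ red e) = L.filter (Lv U) :=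
    Multiset.filter_congr fun e' _ => lv_red e h2 ht hU e'
  rw [h1]
  congr 1
  refine Multiset.map_congr rfl fun e' he' => ?_
  have h3 := (Multiset.mem_filter.1 he').2.1
  exact sub_frm e e' (fun h => absurd (hU h3) (by simp [h]))

theorem sub_mem {V : Finset B} (e : Ed B Λ) (h2 : ∀ b ∈ V, e.2.1 ≠ some b) (ht : e.1 ∈ V)
    {L : Multiset (Ed B Λ)} {g : MvPolynomial B Λ} (hg : g ∈ I V (e ::ₘ L)) :
    sub e g ∈ I (V.erase e.1) (L.map (red e)) := by
  obtain ⟨w, -, j, hj, rfl⟩ := split L e h2 hg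
  rw [map_add, map_mul, sub_frm_self e (h2 _ ht), zero_mul, zero_add]
  have : I (V.erase e.1) L ≤ (I (V.erase e.1) (L.map (red e))).comap (sub e) := by
    refine I_le fun U hU hn => ?_
    rw [Ideal.mem_comap, sub_Y e h2 ht hU]
    exact Y_mem _ hU hn
  exact this hj

theorem sub_congr (e : Ed B Λ) (f : MvPolynomial B Λ) : f - sub e f ∈ Ideal.span {frm e} := by
  induction f using MvPolynomial.induction_on with
  | C a => rw [sub_C, sub_self]; exact Ideal.zero_mem _
  | add p q hp hq =>
    rw [map_add, add_sub_add_comm]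
    exact Ideal.add_mem _ hp hq
  | mul_X p b hp =>
    have h1 : (X b : MvPolynomial B Λ) - sub e (X b) ∈ Ideal.span {frm e} := by
      by_cases hb : b = e.1
      · subst hb
        rw [sub_X_self]
        have : (X e.1 : MvPolynomial B Λ) - (xo Λ e.2.1 - C e.2.2) = frm e := by
          unfold frm; ring
        rw [this]
        exact Ideal.mem_span_singleton_self _
      · rw [sub_X_of_ne e hb, sub_self]
        exact Ideal.zero_mem _
    have h2 : p * X b - sub e (p * X b) = p * (X b - sub e (X b)) + (p - sub e p) * sub e (X b) := by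
      rw [map_mul]; ring
    rw [h2]
    exact Ideal.add_mem _ (Ideal.mul_mem_left _ _ h1) (Ideal.mul_mem_right _ _ hp)

theorem of_sub_mem {V : Finset B} (e : Ed B Λ) (h2 : ∀ b ∈ V, e.2.1 ≠ some b) (ht : e.1 ∈ V)
    {L : Multiset (Ed B Λ)} {g : MvPolynomial B Λ}
    (hg : sub e g ∈ I (V.erase e.1) (L.map (red e))) :
    ∃ g' : MvPolynomial B Λ, ∃ j ∈ I (V.erase e.1) L, g = frm e * g' + j := by
  have h3 : I (V.erase e.1) (L.map (red e)) ≤ Ideal.span {frm e} ⊔ I (V.erase e.1) L := by
    refine I_le fun U hU hn => ?_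
    rw [← sub_Y e h2 ht hU]
    have h4 : sub e (Y L U) = -(Y L U - sub e (Y L U)) + Y L U := by ring
    rw [h4]
    exact Ideal.add_mem _ (Ideal.mem_sup_left (neg_mem (sub_congr e _)))
      (Ideal.mem_sup_right (Y_mem L hU hn))
  have h4 : g ∈ Ideal.span {frm e} ⊔ I (V.erase e.1) L := by
    have h5 : g = (g - sub e g) + sub e g := by ring
    rw [h5]
    exact Ideal.add_mem _ (Ideal.mem_sup_left (sub_congr e g)) (h3 hg)
  obtain ⟨a, ha, j, hj, rfl⟩ := Submodule.mem_sup.1 h4
  obtain ⟨g', rfl⟩ := Ideal.mem_span_singleton'.1 ha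
  exact ⟨g', j, hj, by ring⟩

theorem Y_minus_singleton (u : B) (L : Multiset (Ed B Λ)) : Y (minus u L) {u} = Y L {u} := by
  unfold Y minus
  rw [Multiset.filter_filter]
  congr 2
  refine Multiset.filter_congr fun e _ => ⟨fun h => h.1, fun h => ⟨h, h.2 u (by simp)⟩⟩

/-! ### torsion-freeness and removal -/

section dom

variable [IsDomain Λ]

theorem frm_ne_zero (e : Ed B Λ) (h : e.2.1 ≠ some e.1) : frm e ≠ 0 := by
  intro h0
  have h1 := congrArg (coeff (Finsupp.single e.1 1)) h0
  unfold frm at h1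
  rw [coeff_add, coeff_sub, coeff_C, coeff_X, coeff_zero] at h1
  have h2 : coeff (Finsupp.single e.1 1) (xo Λ e.2.1) = 0 := by
    cases he : e.2.1 with
    | none => simp [xo]
    | some b =>
      have hb : b ≠ e.1 := fun hb => h (by rw [he, hb])
      change coeff (Finsupp.single e.1 1) (X b : MvPolynomial B Λ) = 0
      rw [MvPolynomial.coeff_X]
      rw [if_neg]
      intro h3
      exact hb (Finsupp.single_left_injective one_ne_zero h3)
  rw [h2] at h1
  have h3 : (0 : B →₀ ℕ) ≠ Finsupp.single e.1 1 := by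
    intro h3
    have := DFunLike.congr_fun h3 e.1
    simp at this
  rw [if_neg h3] at h1
  simp at h1

theorem frm_supported {V : Finset B} (e : Ed B Λ) (h2 : ∀ b ∈ V, e.2.1 ≠ some b) :
    frm e ∈ supported Λ ((↑(V.erase e.1) : Set B)ᶜ) := by
  unfold frm
  have h1 : (X e.1 : MvPolynomial B Λ) ∈ supported Λ ((↑(V.erase e.1) : Set B)ᶜ) := by
    rw [X_mem_supported]
    simp
  have h3 : xo Λ e.2.1 ∈ supported Λ ((↑(V.erase e.1) : Set B)ᶜ) := by
    cases he : e.2.1 with
    | none => exact Subalgebra.zero_mem _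
    | some b =>
      change (X b : MvPolynomial B Λ) ∈ _
      rw [X_mem_supported]
      intro hb
      exact h2 b (Finset.mem_of_mem_erase (Finset.mem_coe.1 hb)) he
  exact Subalgebra.add_mem _ (Subalgebra.sub_mem _ h1 h3) (Subalgebra.algebraMap_mem _ _)

theorem sub_of_supported {V : Finset B} (e : Ed B Λ) (ht : e.1 ∈ V) {c : MvPolynomial B Λ}
    (hc : c ∈ supported Λ ((↑V : Set B)ᶜ)) : sub e c = c := by
  rw [mem_supported] at hc
  have h1 : sub e c = aeval (X : B → MvPolynomial B Λ) c := by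
    unfold sub
    refine MvPolynomial.eval₂Hom_congr' rfl ?_ rfl
    intro b hb _
    have : b ≠ e.1 := by
      rintro rfl
      exact hc hb (Finset.mem_coe.2 ht)
    rw [if_neg this]
  rw [h1, aeval_X_left_apply]

/-- torsion-freeness for `V` -/
def TF (V : Finset B) (Λ : Type*) [CommRing Λ] : Prop :=
  ∀ (L : Multiset (Ed B Λ)) (c g : MvPolynomial B Λ), c ∈ supported Λ ((↑V : Set B)ᶜ) → c ≠ 0 →
    c * g ∈ I V L → g ∈ I V L

theorem rem_of_TF {V : Finset B} {e : Ed B Λ} (h : TF (V.erase e.1) Λ)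
    (h2 : ∀ b ∈ V, e.2.1 ≠ some b) (ht : e.1 ∈ V)
    {L : Multiset (Ed B Λ)} {g : MvPolynomial B Λ} (hg : frm e * g ∈ I V (e ::ₘ L)) :
    g ∈ I V L := by
  obtain ⟨w, hw, j, hj, hwj⟩ := split L e h2 hg
  have h3 : frm e * (g - w) ∈ I (V.erase e.1) L := by
    have : frm e * (g - w) = j := by linear_combination hwj
    rw [this]
    exact hj
  have h4 := h L (frm e) (g - w) (frm_supported e h2) (frm_ne_zero e (h2 _ ht)) h3
  have h5 : g = (g - w) + w := by ring
  rw [h5]
  exact Ideal.add_mem _ (I_mono (Finset.erase_subset _ _) L h4) hw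

theorem I_eq_top {V : Finset B} (hn : V.Nonempty) {L : Multiset (Ed B Λ)}
    (h : ∀ e ∈ L, ¬ Lv V e) : I V L = ⊤ := by
  rw [Ideal.eq_top_iff_one]
  have : Y L V = 1 := by
    unfold Y
    rw [Multiset.filter_eq_nil.2 h]
    rfl
  rw [← this]
  exact Y_mem L (Finset.Subset.refl _) hn

theorem TF_all (V : Finset B) : TF V Λ := by
  induction V using Finset.strongInduction with
  | _ V ih =>
    intro L
    induction hL : Multiset.card L using Nat.strong_induction_on generalizing L with
    | _ n ihn =>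
      intro c g hc hc0 hcg
      rcases V.eq_empty_or_nonempty with rfl | hn
      · rw [I_empty] at hcg ⊢
        rcases mul_eq_zero.1 (Ideal.mem_bot.1 hcg) with h | h
        · exact absurd h hc0
        · rw [h]; exact Ideal.zero_mem _
      by_cases hex : ∃ e ∈ L, Lv V e
      · obtain ⟨e, he, ht, h2⟩ := hex
        obtain ⟨L0, rfl⟩ := Multiset.exists_cons_of_mem he
        have hV' : V.erase e.1 ⊂ V := Finset.erase_ssubset ht
        have hTF' := ih _ hV'
        have h3 : c * sub e g ∈ I (V.erase e.1) (L0.map (red e)) := by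
          have := sub_mem e h2 ht hcg
          rwa [map_mul, sub_of_supported e ht hc] at this
        have hc' : c ∈ supported Λ ((↑(V.erase e.1) : Set B)ᶜ) :=
          supported_mono (Set.compl_subset_compl.2 (Finset.coe_subset.2 hV'.1)) hc
        obtain ⟨g', j, hj, rfl⟩ := of_sub_mem e h2 ht (hTF' _ c _ hc' hc0 h3)
        have hj' : j ∈ I V (e ::ₘ L0) := I_erase_le L0 e hj
        have h4 : frm e * (c * g') ∈ I V (e ::ₘ L0) := by
          have : frm e * (c * g') = c * (frm e * g' + j) - c * j := by ring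
          rw [this]
          exact Ideal.sub_mem _ hcg (Ideal.mul_mem_left _ _ hj')
        have h5 := rem_of_TF hTF' h2 ht h4
        have h6 : g' ∈ I V L0 :=
          ihn (Multiset.card L0) (by rw [← hL, Multiset.card_cons]; omega) L0 rfl c g' hc hc0 h5
        exact Ideal.add_mem _ (frm_mul_mem e h6) hj'
      · rw [I_eq_top hn (fun e he h => hex ⟨e, he, h⟩)]
        trivial

/-- Torsion-freeness. -/
theorem tf {V : Finset B} {L : Multiset (Ed B Λ)} {c g : MvPolynomial B Λ}
    (hc : c ∈ supported Λ ((↑V : Set B)ᶜ)) (hc0 : c ≠ 0) (h : c * g ∈ I V L) : g ∈ I V L :=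
  TF_all V L c g hc hc0 h

/-- Removal of an edge. -/
theorem removal {V : Finset B} {e : Ed B Λ} (h2 : ∀ b ∈ V, e.2.1 ≠ some b) (ht : e.1 ∈ V)
    {L : Multiset (Ed B Λ)} {g : MvPolynomial B Λ} (hg : frm e * g ∈ I V (e ::ₘ L)) :
    g ∈ I V L := rem_of_TF (TF_all _) h2 ht hg

/-! ### the intersection -/

theorem minus_le (u : B) (L : Multiset (Ed B Λ)) : minus u L ≤ L := Multiset.filter_le _ _

theorem minus_cons {u : B} {e : Ed B Λ} (h : e.2.1 ≠ some u) (L : Multiset (Ed B Λ)) :
    minus u (e ::ₘ L) = e ::ₘ minus u L := Multiset.filter_cons_of_pos _ h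

theorem minus_map_red {V : Finset B} {e : Ed B Λ} (h2 : ∀ b ∈ V, e.2.1 ≠ some b)
    {u : B} (hu : u ∈ V.erase e.1) (L : Multiset (Ed B Λ)) :
    minus u (L.map (red e)) = (minus u L).map (red e) := by
  unfold minus
  rw [Multiset.filter_map]
  congr 1
  refine Multiset.filter_congr fun e' _ => ?_
  change (red e e').2.1 ≠ some u ↔ e'.2.1 ≠ some u
  by_cases h : e'.2.1 = some e.1
  · have h3 : red e e' = (e'.1, e.2.1, e'.2.2 + e.2.2) := by simp [red, h]
    rw [h3, h]
    refine ⟨fun _ hb => ?_, fun _ => h2 u (Finset.mem_of_mem_erase hu)⟩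
    exact absurd hu (by simp [← Option.some.inj hb])
  · have h3 : red e e' = e' := by simp [red, h]
    rw [h3]

/-- **Intersection.** If `g` lies in `I V (L - edges into u)` for all `u ∈ V`, then `g ∈ I V L`. -/
theorem inter (V : Finset B) : V.Nonempty → ∀ (L : Multiset (Ed B Λ)) (g : MvPolynomial B Λ),
    (∀ u ∈ V, g ∈ I V (minus u L)) → g ∈ I V L := by
  induction V using Finset.strongInduction with
  | _ V ih =>
    intro hn L
    induction hL : Multiset.card L using Nat.strong_induction_on generalizing L with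
    | _ n ihn =>
      intro g hg
      by_cases hex : ∃ e ∈ L, Lv V e
      · obtain ⟨e, he, ht, h2⟩ := hex
        obtain ⟨L0, rfl⟩ := Multiset.exists_cons_of_mem he
        have hV' : V.erase e.1 ⊂ V := Finset.erase_ssubset ht
        rcases (V.erase e.1).eq_empty_or_nonempty with hV | hn'
        · have hV1 : V = {e.1} := by
            rw [← Finset.insert_erase ht, hV]
            rfl
          have h3 := hg e.1 ht
          rw [hV1] at h3 ⊢
          have h4 : I {e.1} (minus e.1 (e ::ₘ L0)) ≤ I {e.1} (e ::ₘ L0) := by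
            refine I_le fun U hU hnU => ?_
            have hU' : U = {e.1} := (Finset.subset_singleton_iff.1 hU).resolve_left hnU.ne_empty
            rw [hU', Y_minus_singleton]
            exact Y_mem _ (Finset.Subset.refl _) (by simp)
          exact h4 h3
        · have h3 : ∀ u ∈ V.erase e.1, sub e g ∈ I (V.erase e.1) (minus u (L0.map (red e))) := by
            intro u hu
            have h4 := hg u (Finset.mem_of_mem_erase hu)
            rw [minus_cons (h2 u (Finset.mem_of_mem_erase hu))] at h4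
            rw [minus_map_red h2 hu]
            exact sub_mem e h2 ht h4
          obtain ⟨g', j, hj, rfl⟩ := of_sub_mem e h2 ht (ih _ hV' hn' _ _ h3)
          have hj' : j ∈ I V (e ::ₘ L0) := I_erase_le L0 e hj
          have h5 : ∀ u ∈ V, g' ∈ I V (minus u L0) := by
            intro u hu
            have h6 : frm e * g' ∈ I V (minus u (e ::ₘ L0)) := by
              have : frm e * g' = (frm e * g' + j) - j := by ring
              rw [this]
              exact Ideal.sub_mem _ (hg u hu) (I_anti (minus_le u _) hj')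
            rw [minus_cons (h2 u hu)] at h6
            exact removal h2 ht h6
          have h6 : g' ∈ I V L0 :=
            ihn (Multiset.card L0) (by rw [← hL, Multiset.card_cons]; omega) L0 rfl g' h5
          exact Ideal.add_mem _ (frm_mul_mem e h6) hj'
      · rw [I_eq_top hn (fun e he h => hex ⟨e, he, h⟩)]
        trivial

end dom

/-- `(Y {u}) + I (V - u) L` (edges of `L` that do not enter `u`) is contained in
`I V (minus u L)`. -/
theorem sup_le_minus {V : Finset B} {u : B} (hu : u ∈ V) (L : Multiset (Ed B Λ)) :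
    Ideal.span {Y L {u}} ⊔ I (V.erase u) (minus u L) ≤ I V (minus u L) := by
  refine sup_le ?_ (I_mono (Finset.erase_subset _ _) _)
  rw [Ideal.span_singleton_le_iff_mem, ← Y_minus_singleton]
  exact Y_mem _ (by simpa using hu) (by simp)

end Cut

end Vale.Agent.P291
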