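import Vale.Agent.P291.HG1Blk
import Vale.Agent.P291.HG2Blk
import Vale.Agent.P291.HN1dBlk

/-!
# P291, stage 2, block N2h, part 1: homogeneous bases
-/

set_option linter.unusedSectionVars false

open MvPolynomial

namespace Vale.Agent.P291

namespace H2h

section linear

variable {k V ι : Type*} [Field k] [CharZero k] [AddCommGroup V] [Module k V]

theorem zpow_two_inj {a b : ℤ} (h : (2 : k) ^ a = 2 ^ b) : a = b := by
  have h1 : ((2 : ℚ) : k) ^ a = ((2 : ℚ) : k) ^ b := by simpa using h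
  rw [← Rat.cast_zpow, ← Rat.cast_zpow] at h1
  have h2 : (2 : ℚ) ^ a = 2 ^ b := Rat.cast_injective h1
  exact zpow_right_injective₀ (by norm_num) (by norm_num) h2

theorem eig_span (s : V →ₗ[k] V) (b : ι → V) (hb : LinearIndependent k b) (deg : ι → ℤ)
    (hs : ∀ i, s (b i) = (2 : k) ^ deg i • b i) (d : ℤ) :
    Submodule.span k (Set.range b) ⊓ LinearMap.ker (s - (2 : k) ^ d • LinearMap.id) =
      Submodule.span k (b '' {i | deg i = d}) := by
  classical
  apply le_antisymm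
  · rintro x ⟨hx, hx'⟩
    obtain ⟨c, rfl⟩ := Finsupp.mem_span_range_iff_exists_finsupp.1 hx
    rw [Finsupp.sum] at hx' ⊢
    have h1 : ∑ i ∈ c.support, (c i * ((2 : k) ^ deg i - 2 ^ d)) • b i = 0 := by
      have h2 := LinearMap.mem_ker.1 hx'
      rw [map_sum] at h2
      rw [← h2]
      refine Finset.sum_congr rfl fun i _ => ?_
      simp only [LinearMap.sub_apply, LinearMap.smul_apply, LinearMap.id_apply, map_smul, hs]
      rw [mul_sub, sub_smul, smul_sub, smul_smul, smul_smul]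
    have h2 := linearIndependent_iff'.1 hb c.support _ h1
    refine Submodule.sum_mem _ fun i hi => Submodule.smul_mem _ _ (Submodule.subset_span ⟨i, ?_, rfl⟩)
    have h3 := h2 i hi
    rcases mul_eq_zero.1 h3 with h4 | h4
    · exact absurd h4 (Finsupp.mem_support_iff.1 hi)
    · exact zpow_two_inj (sub_eq_zero.1 h4)
  · rw [Submodule.span_le]
    rintro x ⟨i, rfl, rfl⟩
    refine ⟨Submodule.subset_span ⟨i, rfl⟩, ?_⟩
    simp [LinearMap.mem_ker, hs]

end linear

section scal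

variable {B Λ k : Type*} [CommRing Λ] [IsDomain Λ] [Field k] [CharZero k] [Algebra k Λ]
variable (S : Scal k Λ)

theorem sS_smul (c : k) (f : SS B Λ) : S.sS B (c • f) = c • S.sS B f := by
  have h : ∀ g : SS B Λ, c • g = C (algebraMap k Λ c) * g := fun g => by
    rw [← MvPolynomial.smul_eq_C_mul, algebraMap_smul]
  rw [h, h, map_mul, Scal.sS_C, S.θ.commutes]

theorem smul_toK (c : k) (f : KK B Λ) : c • f = toK (C (algebraMap k Λ c)) * f := by
  rw [Algebra.smul_def, IsScalarTower.algebraMap_apply k (SS B Λ) (KK B Λ)]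
  rfl

theorem smul_toK' (c : Λ) (f : KK B Λ) : c • f = toK (C c) * f := by
  rw [Algebra.smul_def, IsScalarTower.algebraMap_apply Λ (SS B Λ) (KK B Λ)]
  rfl

theorem sK_smul (c : k) (f : KK B Λ) : S.sK B (c • f) = c • S.sK B f := by
  rw [smul_toK, smul_toK, map_mul, Scal.sK_toK, Scal.sS_C, S.θ.commutes]

theorem sK_smul' (c : Λ) (f : KK B Λ) : S.sK B (c • f) = S.θ c • S.sK B f := by
  rw [smul_toK', smul_toK', map_mul, Scal.sK_toK, Scal.sS_C]

/-- scaling as a linear map -/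
noncomputable def sSl : SS B Λ →ₗ[k] SS B Λ where
  toFun := S.sS B
  map_add' := map_add _
  map_smul' := sS_smul S

/-- scaling as a linear map -/
noncomputable def sKl : KK B Λ →ₗ[k] KK B Λ where
  toFun := S.sK B
  map_add' := map_add _
  map_smul' := sK_smul S

theorem two_zpow (d : ℤ) (f : KK B Λ) : (2 : KK B Λ) ^ d * f = (2 : k) ^ d • f := by
  rw [Algebra.smul_def, map_zpow₀, map_ofNat]

theorem hom_iff {d : ℤ} {f : KK B Λ} : S.Hom d f ↔ sKl S f = (2 : k) ^ d • f := by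
  rw [Scal.Hom, two_zpow (k := k)]
  rfl

theorem smul_toK_eq (c : k) (f : SS B Λ) : toK (c • f) = c • toK f := by
  rw [smul_toK, ← map_mul]
  congr 1
  rw [← MvPolynomial.smul_eq_C_mul, algebraMap_smul]

theorem toK_inj {f g : SS B Λ} (h : toK f = toK g) : f = g :=
  IsFractionRing.injective (SS B Λ) (KK B Λ) h

theorem homS_iff {d : ℤ} {f : SS B Λ} : f ∈ S.homS B d ↔ sSl S f = (2 : k) ^ d • f := by
  have h1 : f ∈ S.homS B d ↔ S.Hom d (toK f) := Iff.rfl
  rw [h1, Scal.Hom, Scal.sK_toK, two_zpow (k := k), ← smul_toK_eq]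
  exact ⟨fun h => toK_inj h, fun h => congrArg toK h⟩

theorem Hom_toK {d : ℤ} {f : SS B Λ} : S.Hom d (toK f) ↔ f ∈ S.homS B d := Iff.rfl

/-- monomial basis over `k` -/
noncomputable def monB {ιΛ : Type*} (c : Module.Basis ιΛ k Λ) (B : Type*) :
    Module.Basis (ιΛ × (B →₀ ℕ)) k (SS B Λ) :=
  c.smulTower (MvPolynomial.basisMonomials B Λ)

theorem monB_apply {ιΛ : Type*} (c : Module.Basis ιΛ k Λ) (p : ιΛ × (B →₀ ℕ)) :
    monB c B p = C (c p.1) * monomial p.2 1 := by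
  rw [monB, Module.Basis.smulTower_apply, MvPolynomial.coe_basisMonomials,
    MvPolynomial.smul_eq_C_mul]

theorem sS_monomial (m : B →₀ ℕ) :
    S.sS B (monomial m 1) = 2 ^ (m.sum fun _ n => n) * monomial m 1 := by
  rw [MvPolynomial.monomial_eq, map_mul, Finsupp.prod, map_prod, C_1, map_one, one_mul, one_mul,
    Finsupp.sum, ← Finset.prod_pow_eq_pow_sum, ← Finset.prod_mul_distrib]
  refine Finset.prod_congr rfl fun b _ => ?_
  rw [map_pow, Scal.sS_X, mul_pow]

theorem monB_hom {ιΛ : Type*} (c : Module.Basis ιΛ k Λ) (dc : ιΛ → ℕ)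
    (hc : ∀ i, S.θ (c i) = 2 ^ dc i * c i) (p : ιΛ × (B →₀ ℕ)) :
    sSl S (monB c B p) = (2 : k) ^ ((dc p.1 : ℤ) + ((p.2.sum fun _ n => n : ℕ) : ℤ)) •
      monB c B p := by
  have h0 : sSl S (monB c B p) = S.sS B (monB c B p) := rfl
  rw [h0, monB_apply, map_mul, Scal.sS_C, hc, sS_monomial]
  rw [← Nat.cast_add, zpow_natCast, pow_add, Algebra.smul_def, map_mul, map_mul, map_pow, map_pow,
    map_pow, map_ofNat, map_ofNat]
  ring

theorem finite_mon [Finite B] {ιΛ : Type*} (dc : ιΛ → ℕ) (hfin : ∀ n, {i | dc i = n}.Finite)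
    (d : ℤ) :
    {p : ιΛ × (B →₀ ℕ) | (dc p.1 : ℤ) + ((p.2.sum fun _ n => n : ℕ) : ℤ) = d}.Finite := by
  classical
  have : Fintype B := Fintype.ofFinite B
  have h1 : {i : ιΛ | dc i ≤ d.toNat}.Finite := by
    have : {i : ιΛ | dc i ≤ d.toNat} = ⋃ n ∈ Finset.range (d.toNat + 1), {i | dc i = n} := by
      ext i; simp
    rw [this]
    exact Set.Finite.biUnion (Finset.finite_toSet _) fun n _ => hfin n
  have h2 : {m : B →₀ ℕ | ∀ b, m b ≤ d.toNat}.Finite := by
    have h3 : {f : B → ℕ | ∀ b, f b ≤ d.toNat}.Finite :=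
      Set.Finite.subset (Set.finite_Icc (0 : B → ℕ) (fun _ => d.toNat)) fun f hf =>
        ⟨fun b => Nat.zero_le _, fun b => hf b⟩
    exact Set.Finite.preimage (DFunLike.coe_injective.injOn) h3
  refine Set.Finite.subset (h1.prod h2) ?_
  rintro ⟨i, m⟩ h
  simp only [Set.mem_ofPred_eq] at h
  refine ⟨?_, fun b => ?_⟩
  · simp only [Set.mem_ofPred_eq]; omega
  · have h4 : m b ≤ m.sum fun _ n => n := by
      by_cases hb : b ∈ m.support
      · exact Finset.single_le_sum (f := fun b => m b) (fun _ _ => Nat.zero_le _) hb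
      · rw [Finsupp.notMem_support_iff.1 hb]; exact Nat.zero_le _
    show m b ≤ d.toNat
    omega

theorem homS_eq_span {ιΛ : Type*} (c : Module.Basis ιΛ k Λ) (dc : ιΛ → ℕ)
    (hc : ∀ i, S.θ (c i) = 2 ^ dc i * c i) (d : ℤ) :
    S.homS B d = Submodule.span k (monB c B ''
      {p | (dc p.1 : ℤ) + ((p.2.sum fun _ n => n : ℕ) : ℤ) = d}) := by
  rw [← eig_span (sSl S) (monB c B) (monB c B).linearIndependent _ (monB_hom S c dc hc) d,
    (monB c B).span_eq, top_inf_eq]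
  ext f
  rw [homS_iff, LinearMap.mem_ker, LinearMap.sub_apply, LinearMap.smul_apply,
    LinearMap.id_apply, sub_eq_zero]

theorem finite_homS [Finite B] {ιΛ : Type*} (c : Module.Basis ιΛ k Λ) (dc : ιΛ → ℕ)
    (hc : ∀ i, S.θ (c i) = 2 ^ dc i * c i) (hfin : ∀ n, {i | dc i = n}.Finite) (d : ℤ) :
    Module.Finite k (S.homS B d) := by
  rw [homS_eq_span S c dc hc d]
  exact Module.Finite.span_of_finite k ((finite_mon dc hfin d).image _)

theorem homS_neg {ιΛ : Type*} (c : Module.Basis ιΛ k Λ) (dc : ιΛ → ℕ)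
    (hc : ∀ i, S.θ (c i) = 2 ^ dc i * c i) {d : ℤ} (hd : d < 0) : S.homS B d = ⊥ := by
  rw [homS_eq_span S c dc hc d]
  have : {p : ιΛ × (B →₀ ℕ) | (dc p.1 : ℤ) + ((p.2.sum fun _ n => n : ℕ) : ℤ) = d} = ∅ := by
    rw [Set.eq_empty_iff_forall_notMem]
    intro p hp
    simp only [Set.mem_ofPred_eq] at hp
    omega
  rw [this, Set.image_empty, Submodule.span_empty]

end scal

section rho

variable {I E B Λ k : Type*} [Fintype E] [DecidableEq I] [Fintype B] [DecidableEq B] [CommRing Λ]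
  [IsDomain Λ] [Field k] [CharZero k] [Algebra k Λ]
variable (Q : QD I E B Λ) (S : Scal k Λ)

theorem sS_rename (σ : Equiv.Perm B) (f : SS B Λ) :
    S.sS B (rename σ f) = rename σ (S.sS B f) := by
  apply toK_inj
  rw [← Scal.sK_toK, ← act_toK, ← act_toK, ← Scal.sK_toK, sK_act]

theorem R_stable {f : SS B Λ} (hf : f ∈ Q.R) : S.sS B f ∈ Q.R := by
  intro σ hσ
  rw [← sS_rename, hf σ hσ]

theorem ksmul_mem {V : Type*} [AddCommGroup V] [Module Λ V] [Module k V] [IsScalarTower k Λ V]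
    (M : Submodule Λ V) (c : k) {x : V} (hx : x ∈ M) : c • x ∈ M := by
  rw [← algebraMap_smul Λ c x]
  exact M.smul_mem _ hx

theorem span_stable {s : Set (KK B Λ)}
    (h : ∀ x ∈ s, S.sK B x ∈ Submodule.span Λ s) {x : KK B Λ}
    (hx : x ∈ Submodule.span Λ s) : S.sK B x ∈ Submodule.span Λ s := by
  refine Submodule.span_induction (p := fun x _ => S.sK B x ∈ Submodule.span Λ s) h ?_ ?_ ?_ hx
  · rw [map_zero]; exact Submodule.zero_mem _
  · intro x y _ _ hx hy
    rw [map_add]; exact Submodule.add_mem _ hx hy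
  · intro c x _ hx
    rw [sK_smul']
    exact Submodule.smul_mem _ _ hx

theorem UU_stable (hS : Q.Lin S) {f : KK B Λ} (hf : f ∈ Q.UU) : S.sK B f ∈ Q.UU := by
  refine span_stable S ?_ hf
  rintro x ⟨g, s, hg, rfl⟩
  have h1 : S.sK B (Q.hall g s) = (2 : k) ^ Q.degK g • Q.hall g (S.sS B s) := by
    unfold QD.hall
    rw [map_sum, Finset.smul_sum]
    refine Finset.sum_congr rfl fun σ _ => ?_
    rw [sK_act, map_mul, Scal.sK_toK, hom_kap Q S hS g, two_zpow (k := k)]
    have h2 : ∀ (c : k) (x : KK B Λ), act σ (c • x) = c • act σ x := by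
      intro c x
      rw [smul_toK, smul_toK, map_mul, act_toK, rename_C]
    rw [mul_smul_comm, h2]
  rw [h1]
  exact ksmul_mem (k := k) (Submodule.span Λ {f | ∃ (g : B → ℕ) (s : SS B Λ), g ≠ 0 ∧
    f = Q.hall g s}) _ (Submodule.subset_span ⟨g, S.sS B s, hg, rfl⟩)

theorem JD_stable [Algebra ℚ Λ] (hS : Q.Lin S) (hQ : Q.NonzeroLoops) {f : SS B Λ}
    (hf : f ∈ Q.JD) : S.sS B f ∈ Q.JD := by
  rw [JD_iff Q hQ (R_stable Q S hf.1), ← Scal.sK_toK]
  exact UU_stable Q S hS ((JD_iff Q hQ hf.1).1 hf)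

theorem mem_Rd {d : ℤ} {f : SS B Λ} : f ∈ Q.Rd S d ↔ f ∈ Q.R ∧ f ∈ S.homS B d := Iff.rfl

theorem mem_Jd {d : ℤ} {f : SS B Λ} : f ∈ Q.Jd S d ↔ f ∈ Q.JDs ∧ f ∈ S.homS B d := Iff.rfl

theorem exists_rho0 [Algebra ℚ Λ] (hS : Q.Lin S) (hQ : Q.NonzeroLoops) {ιΛ : Type*}
    (c : Module.Basis ιΛ k Λ) (dc : ιΛ → ℕ)
    (hc : ∀ i, S.θ (c i) = 2 ^ dc i * c i) (hfin : ∀ n, {i | dc i = n}.Finite) :
    ∃ ρ : (Σ n : ℤ, Fin (Q.hH S n)) → SS B Λ, (∀ j, ρ j ∈ Q.Rd S j.1) ∧
      (∀ (s : Finset (Σ n : ℤ, Fin (Q.hH S n))) (x : (Σ n : ℤ, Fin (Q.hH S n)) → k),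
        ∑ j ∈ s, x j • ρ j ∈ Q.JDs → ∀ j ∈ s, x j = 0) ∧
      (∀ r ∈ Q.R, ∃ y ∈ Submodule.span k (Set.range ρ), r - y ∈ Q.JDs) := by
  classical
  have hf : ∀ n, Module.Finite k (Q.Rd S n) := fun n => by
    have h1 := finite_homS (B := B) S c dc hc hfin n
    exact Submodule.finiteDimensional_of_le (inf_le_right : Q.Rd S n ≤ S.homS B n)
  let bq : ∀ n, Module.Basis (Fin (Q.hH S n)) k
      (↥(Q.Rd S n) ⧸ (Q.Jd S n).submoduleOf (Q.Rd S n)) := fun n => Module.finBasis k _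
  have hl : ∀ n l, ∃ r : Q.Rd S n, Submodule.Quotient.mk r = bq n l := fun n l =>
    Submodule.Quotient.mk_surjective _ _
  choose lf hlf using hl
  refine ⟨fun j => (lf j.1 j.2 : SS B Λ), fun j => (lf j.1 j.2).2, ?_, ?_⟩
  · intro s x h j0 hj0
    let Fn : ℤ → SS B Λ := fun n => ∑ l : Fin (Q.hH S n),
      (if (⟨n, l⟩ : Σ n : ℤ, Fin (Q.hH S n)) ∈ s then x ⟨n, l⟩ else 0) • (lf n l : SS B Λ)
    let F : ℤ →₀ SS B Λ := Finsupp.onFinset (s.image Sigma.fst) Fn (by
      intro n hn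
      by_contra hns
      apply hn
      refine Finset.sum_eq_zero fun l _ => ?_
      rw [if_neg, zero_smul]
      intro h'
      exact hns (Finset.mem_image.2 ⟨_, h', rfl⟩))
    have hsum : (F.sum fun _ x => x) = ∑ j ∈ s, x j • (lf j.1 j.2 : SS B Λ) := by
      rw [Finsupp.onFinset_sum _ (fun _ => rfl)]
      have e1 : ∑ n ∈ s.image Sigma.fst, Fn n =
          ∑ j ∈ (s.image Sigma.fst).sigma (fun _ => Finset.univ),
            (if j ∈ s then x j else 0) • (lf j.1 j.2 : SS B Λ) := by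
        rw [Finset.sum_sigma]
      have hsub : s ⊆ (s.image Sigma.fst).sigma (fun _ => Finset.univ) := by
        intro j hj
        rw [Finset.mem_sigma]
        exact ⟨Finset.mem_image_of_mem _ hj, Finset.mem_univ _⟩
      have e2 : ∑ j ∈ s, (if j ∈ s then x j else 0) • (lf j.1 j.2 : SS B Λ) =
          ∑ j ∈ (s.image Sigma.fst).sigma (fun _ => Finset.univ),
            (if j ∈ s then x j else 0) • (lf j.1 j.2 : SS B Λ) :=
        Finset.sum_subset hsub fun j _ hj => by rw [if_neg hj, zero_smul]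
      rw [e1, ← e2]
      exact Finset.sum_congr rfl fun j hj => by rw [if_pos hj]
    have hFhom : ∀ n, Fn n ∈ Q.Rd S n := fun n =>
      Submodule.sum_mem _ fun l _ => Submodule.smul_mem _ _ (lf n l).2
    have hF := comp_mem (sSl S) (Q.JDs.restrictScalars k) (fun f hf => JD_stable Q S hS hQ hf) F
      (fun d => (homS_iff S).1 (hFhom d).2) (by rw [hsum]; exact h) j0.1
    have h1 : (⟨Fn j0.1, hFhom j0.1⟩ : Q.Rd S j0.1) ∈ (Q.Jd S j0.1).submoduleOf (Q.Rd S j0.1) := by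
      show Fn j0.1 ∈ Q.Jd S j0.1
      exact ⟨hF, (hFhom j0.1).2⟩
    rw [← Submodule.Quotient.mk_eq_zero] at h1
    have h2 : (⟨Fn j0.1, hFhom j0.1⟩ : Q.Rd S j0.1) = ∑ l : Fin (Q.hH S j0.1),
      (if (⟨j0.1, l⟩ : Σ n : ℤ, Fin (Q.hH S n)) ∈ s then x ⟨j0.1, l⟩ else 0) • lf j0.1 l := by
      apply Subtype.ext
      simp only [Fn, AddSubmonoidClass.coe_finsetSum, SetLike.val_smul]
    rw [h2] at h1
    have h3 : ∑ l : Fin (Q.hH S j0.1),
      (if (⟨j0.1, l⟩ : Σ n : ℤ, Fin (Q.hH S n)) ∈ s then x ⟨j0.1, l⟩ else 0) • bq j0.1 l = 0 := by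
      rw [← h1, ← Submodule.mkQ_apply, map_sum]
      refine Finset.sum_congr rfl fun l _ => ?_
      rw [map_smul, Submodule.mkQ_apply, hlf]
    have h4 := Fintype.linearIndependent_iff.1 (bq j0.1).linearIndependent _ h3 j0.2
    rwa [if_pos hj0] at h4
  · intro r hr
    obtain ⟨F, hF, hFr⟩ := exists_dec S r
    let emb : ℕ ↪ ℤ := ⟨fun n => (n : ℤ), Nat.cast_injective⟩
    let F' : ℤ →₀ SS B Λ := Finsupp.embDomain emb F
    have hF's : (F'.sum fun _ x => x) = r := by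
      rw [hFr]
      exact Finsupp.sum_embDomain
    have hF'hom : ∀ d, sSl S (F' d) = (2 : k) ^ d • F' d := by
      intro d
      by_cases hd : d ∈ Set.range emb
      · obtain ⟨n, rfl⟩ := hd
        have : F' (emb n) = F n := Finsupp.embDomain_apply_self emb F n
        rw [this]
        exact (homS_iff S).1 (hF n)
      · have : F' d = 0 := Finsupp.embDomain_of_notMem_range emb F d hd
        rw [this, map_zero, smul_zero]
    have hR := comp_mem (sSl S) ((Subalgebra.toSubmodule Q.R).restrictScalars k)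
      (fun f hf => R_stable Q S hf) F' hF'hom (by rw [hF's]; exact hr)
    have key : ∀ n : ℤ, ∃ y ∈ Submodule.span k
        (Set.range fun j : (Σ n : ℤ, Fin (Q.hH S n)) => (lf j.1 j.2 : SS B Λ)),
        F' n - y ∈ Q.JDs := by
      intro n
      have hn : F' n ∈ Q.Rd S n := ⟨hR n, (homS_iff S).2 (hF'hom n)⟩
      let f : Q.Rd S n := ⟨F' n, hn⟩
      let q : (↥(Q.Rd S n) ⧸ (Q.Jd S n).submoduleOf (Q.Rd S n)) := Submodule.Quotient.mk f
      refine ⟨∑ l, (bq n).repr q l • (lf n l : SS B Λ), ?_, ?_⟩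
      · exact Submodule.sum_mem _ fun l _ => Submodule.smul_mem _ _
          (Submodule.subset_span ⟨⟨n, l⟩, rfl⟩)
      · have h1 : f - ∑ l, (bq n).repr q l • lf n l ∈
            (Q.Jd S n).submoduleOf (Q.Rd S n) := by
          rw [← Submodule.Quotient.mk_eq_zero, Submodule.Quotient.mk_sub, sub_eq_zero,
            ← Submodule.mkQ_apply _ (∑ l, (bq n).repr q l • lf n l), map_sum]
          show q = _
          conv_lhs => rw [← (bq n).sum_repr q]
          refine Finset.sum_congr rfl fun l _ => ?_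
          rw [map_smul, Submodule.mkQ_apply, hlf]
        have h2 : ((f - ∑ l, (bq n).repr q l • lf n l : Q.Rd S n) : SS B Λ) ∈ Q.Jd S n := h1
        have h3 : ((f - ∑ l, (bq n).repr q l • lf n l : Q.Rd S n) : SS B Λ) =
            F' n - ∑ l, (bq n).repr q l • (lf n l : SS B Λ) := by
          simp only [AddSubgroupClass.coe_sub, AddSubmonoidClass.coe_finsetSum, SetLike.val_smul]
          rfl
        rw [← h3]
        exact h2.1
    choose y hy hy' using key
    refine ⟨∑ n ∈ F'.support, y n, Submodule.sum_mem _ fun n _ => hy n, ?_⟩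
    rw [← hF's, Finsupp.sum, ← Finset.sum_sub_distrib]
    exact Submodule.sum_mem _ fun n _ => hy' n

end rho

end H2h

end Vale.Agent.P291
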