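import Vale.Agent.P291.H548.N2h1
import Vale.Agent.P291.HN2fBlk

/-!
# P291, stage 2, block N2h, part 2: bases of the pieces
-/

set_option linter.unusedSectionVars false

open MvPolynomial

namespace Vale.Agent.P291

namespace H2h

section pieces

variable {I E B Λ k : Type*} [Fintype E] [DecidableEq I] [Fintype B] [DecidableEq B] [CommRing Λ]
  [IsDomain Λ] [Field k] [CharZero k] [Algebra k Λ]
variable (Q : QD I E B Λ) (S : Scal k Λ)

theorem emb_smul' {B' : Type*} (j : B' ↪ B) (c : Λ) (f : KK B' Λ) :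
    emb j (c • f) = c • emb j f := by
  rw [smul_toK', smul_toK', map_mul, emb_toK, rename_C]

theorem emb_smul {B' : Type*} (j : B' ↪ B) (c : k) (f : KK B' Λ) :
    emb j (c • f) = c • emb j f := by
  rw [smul_toK, smul_toK, map_mul, emb_toK, rename_C]

/-- the embedding as a linear map -/
noncomputable def embL {B' : Type*} (j : B' ↪ B) : KK B' Λ →ₗ[Λ] KK B Λ where
  toFun := emb j
  map_add' := map_add _
  map_smul' := emb_smul' j

theorem embL_ker {B' : Type*} (j : B' ↪ B) : LinearMap.ker (embL (Λ := Λ) j) = ⊥ :=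
  LinearMap.ker_eq_bot.2 (emb (Λ := Λ) j).injective

theorem exists_a [Algebra ℚ Λ] (hS : Q.Lin S) (hQ : Q.NonzeroLoops) (U : Finset B) :
    ∃ a : ((Q.rst U).unf).Idx → KK B Λ, (∀ i, S.Hom (((Q.rst U).unf).degI i) (a i)) ∧
      LinearIndependent Λ a ∧ Submodule.span Λ (Set.range a) = Q.LN U := by
  have hS' : ((Q.rst U).unf).Lin S := fun a => hS a.1
  have hQ' : ((Q.rst U).unf).NonzeroLoops := fun a ha => hQ a.1 ha
  obtain ⟨β, h1, h2, h3⟩ := LL_basis (Q.rst U).unf S hS' hQ'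
  refine ⟨fun i => emb (Function.Embedding.subtype _) (β i), fun i => ?_, ?_, ?_⟩
  · rw [emb_hom]; exact h1 i
  · exact h2.map' (embL (Function.Embedding.subtype _)) (embL_ker _)
  · have h4 : Set.range (fun i => emb (Function.Embedding.subtype _) (β i)) =
        (embL (Λ := Λ) (Function.Embedding.subtype (fun b => b ∈ U))) '' Set.range β := by
      rw [← Set.range_comp]; rfl
    rw [h4, ← Submodule.map_span, h3]
    ext f
    rw [LN_iff]
    exact Iff.rfl

theorem toK_mem_UU [Algebra ℚ Λ] (hQ : Q.NonzeroLoops) {f : SS B Λ} (hf : f ∈ Q.R)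
    (h : toK f ∈ Q.UU) : f ∈ Q.JDs := (JD_iff Q hQ hf).2 h

theorem exists_rho [Algebra ℚ Λ] (hS : Q.Lin S) (hQ : Q.NonzeroLoops) {ιΛ : Type*}
    (c : Module.Basis ιΛ k Λ) (dc : ιΛ → ℕ)
    (hc : ∀ i, S.θ (c i) = 2 ^ dc i * c i) (hfin : ∀ n, {i | dc i = n}.Finite) (U : Finset B) :
    ∃ ρ : (Σ n : ℤ, Fin ((Q.rst Uᶜ).hH S n)) → KK B Λ, (∀ j, ρ j ∈ Q.RF U) ∧
      (∀ j, S.Hom j.1 (ρ j)) ∧
      (∀ (s : Finset (Σ n : ℤ, Fin ((Q.rst Uᶜ).hH S n)))
        (x : (Σ n : ℤ, Fin ((Q.rst Uᶜ).hH S n)) → k),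
        ∑ j ∈ s, x j • ρ j ∈ Q.UF U → ∀ j ∈ s, x j = 0) ∧
      (∀ r ∈ Q.RF U, ∃ y ∈ Submodule.span k (Set.range ρ), r - y ∈ Q.UF U) := by
  have hS' : (Q.rst Uᶜ).Lin S := fun a => hS a
  have hQ' : (Q.rst Uᶜ).NonzeroLoops := fun a ha => hQ a ha
  obtain ⟨ρ, h1, h2, h3⟩ := exists_rho0 (Q.rst Uᶜ) S hS' hQ' c dc hc hfin
  refine ⟨fun j => emb (Function.Embedding.subtype _) (toK (ρ j)), ?_, ?_, ?_, ?_⟩
  · intro j
    rw [RF_iff]
    exact ⟨ρ j, (h1 j).1, rfl⟩
  · intro j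
    rw [emb_hom]
    exact (h1 j).2
  · intro s x h
    apply h2 s x
    have h4 : ∑ j ∈ s, x j • emb (Function.Embedding.subtype (fun b => b ∈ Uᶜ)) (toK (ρ j)) =
        emb (Function.Embedding.subtype _) (toK (∑ j ∈ s, x j • ρ j)) := by
      rw [toK, map_sum, map_sum]
      refine Finset.sum_congr rfl fun j _ => ?_
      rw [← emb_smul]
      congr 1
      exact (smul_toK_eq _ _).symm
    rw [h4, UF_iff] at h
    obtain ⟨f', hf', he⟩ := h
    have h5 := (emb (Λ := Λ) (Function.Embedding.subtype (fun b => b ∈ Uᶜ))).injective he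
    refine toK_mem_UU _ hQ' ?_ (h5 ▸ hf')
    exact Submodule.sum_mem (Subalgebra.toSubmodule ((Q.rst Uᶜ).R) |>.restrictScalars k)
      fun j _ => Submodule.smul_mem _ _ (h1 j).1
  · intro r hr
    rw [RF_iff] at hr
    obtain ⟨r0, hr0, rfl⟩ := hr
    obtain ⟨y, hy, hy'⟩ := h3 r0 hr0
    refine ⟨emb (Function.Embedding.subtype _) (toK y), ?_, ?_⟩
    · refine Submodule.span_induction
        (p := fun y _ => emb (Function.Embedding.subtype (fun b => b ∈ Uᶜ)) (toK y) ∈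
          Submodule.span k (Set.range fun j =>
            emb (Function.Embedding.subtype (fun b => b ∈ Uᶜ)) (toK (ρ j)))) ?_ ?_ ?_ ?_ hy
      · rintro _ ⟨j, rfl⟩
        exact Submodule.subset_span ⟨j, rfl⟩
      · simp
      · intro a b _ _ ha hb
        rw [toK, map_add, map_add]
        exact Submodule.add_mem _ ha hb
      · intro c a _ ha
        rw [smul_toK_eq, emb_smul]
        exact Submodule.smul_mem _ _ ha
    · rw [← map_sub, UF_iff]
      refine ⟨toK r0 - toK y, ?_, rfl⟩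
      have h5 : toK r0 - toK y = toK (r0 - y) := (map_sub _ _ _).symm
      rw [h5]
      exact (JD_iff (Q.rst Uᶜ) hQ' (show (r0 - y) ∈ (Q.rst Uᶜ).R from hy'.1)).1 hy'

end pieces

end H2h

end Vale.Agent.P291
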