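import Vale.Agent.P291.H548.N2h2
import Vale.Agent.P291.HN2aBlk
import Vale.Agent.P291.HN2eBlk
import Vale.Agent.P291.HN2dBlk

/-!
# P291, stage 2, block N2h, part 3: the second homogeneous basis of `L(Q)`
-/

set_option linter.unusedSectionVars false

open MvPolynomial

namespace Vale.Agent.P291

namespace H2h



section fam

variable {I E B Λ k : Type*} [Fintype E] [DecidableEq I] [Fintype B] [DecidableEq B] [CommRing Λ]
  [IsDomain Λ] [Field k] [CharZero k] [Algebra k Λ]
variable (Q : QD I E B Λ) (S : Scal k Λ)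

theorem star_add (U : Finset B) (f g : KK B Λ) : Q.star U (f + g) = Q.star U f + Q.star U g :=
  map_add (Q.starL U) f g

theorem star_smul (U : Finset B) (c : Λ) (f : KK B Λ) : Q.star U (c • f) = c • Q.star U f :=
  map_smul (Q.starL U) c f

theorem star_zero (U : Finset B) : Q.star U (0 : KK B Λ) = 0 := map_zero (Q.starL U)

theorem star_sum {ι : Type*} (U : Finset B) (s : Finset ι) (f : ι → KK B Λ) :
    Q.star U (∑ i ∈ s, f i) = ∑ i ∈ s, Q.star U (f i) := map_sum (Q.starL U) f s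

theorem star_ksmul (U : Finset B) (c : k) (f : KK B Λ) : Q.star U (c • f) = c • Q.star U f := by
  rw [← algebraMap_smul Λ c f, star_smul, algebraMap_smul]

theorem sum_sigma_pre {ι : Type*} [Fintype ι] {α : ι → Type*} {M : Type*} [AddCommMonoid M]
    (s : Finset (Σ i, α i)) (F : (Σ i, α i) → M) :
    ∑ p ∈ s, F p = ∑ i : ι, ∑ q ∈ s.preimage (Sigma.mk i) sigma_mk_injective.injOn, F ⟨i, q⟩ := by
  have h : s = Finset.univ.sigma
      (fun i => s.preimage (Sigma.mk i) sigma_mk_injective.injOn) := by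
    ext ⟨i, q⟩
    simp
  conv_lhs => rw [h]
  rw [Finset.sum_sigma]

theorem sum_prod_pre {α β M : Type*} [DecidableEq α] [DecidableEq β] [AddCommMonoid M]
    (s : Finset (α × β)) (F : α × β → M) :
    ∑ p ∈ s, F p = ∑ i ∈ s.image Prod.fst, ∑ j ∈ s.image Prod.snd,
      if (i, j) ∈ s then F (i, j) else 0 := by
  rw [← Finset.sum_product', ← Finset.sum_filter]
  refine Finset.sum_congr ?_ fun _ _ => rfl
  ext ⟨i, j⟩
  simp only [Finset.mem_filter, Finset.mem_product, Finset.mem_image]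
  constructor
  · intro h
    exact ⟨⟨⟨_, h, rfl⟩, ⟨_, h, rfl⟩⟩, h⟩
  · exact fun h => h.2

variable (T : Finset (Finset B))
  (hT : ∀ M : Finset B, ∃! U, U ∈ T ∧ ∃ σ ∈ Q.W, M.map σ.toEmbedding = U)

/-- the data chosen for every `U` -/
structure Dat (U : Finset B) where
  /-- basis of the near part -/
  a : ((Q.rst U).unf).Idx → KK B Λ
  ah : ∀ i, S.Hom (((Q.rst U).unf).degI i) (a i)
  ai : LinearIndependent Λ a
  as : Submodule.span Λ (Set.range a) = Q.LN U
  /-- basis of the far part modulo `UF` -/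
  ρ : (Σ n : ℤ, Fin ((Q.rst Uᶜ).hH S n)) → KK B Λ
  rm : ∀ j, ρ j ∈ Q.RF U
  rh : ∀ j, S.Hom j.1 (ρ j)
  ri : ∀ (s : Finset (Σ n : ℤ, Fin ((Q.rst Uᶜ).hH S n)))
        (x : (Σ n : ℤ, Fin ((Q.rst Uᶜ).hH S n)) → k),
        ∑ j ∈ s, x j • ρ j ∈ Q.UF U → ∀ j ∈ s, x j = 0
  rs : ∀ r ∈ Q.RF U, ∃ y ∈ Submodule.span k (Set.range ρ), r - y ∈ Q.UF U

theorem exists_dat [Algebra ℚ Λ] (hS : Q.Lin S) (hQ : Q.NonzeroLoops) {ιΛ : Type*}
    (c : Module.Basis ιΛ k Λ) (dc : ιΛ → ℕ)
    (hc : ∀ i, S.θ (c i) = 2 ^ dc i * c i) (hfin : ∀ n, {i | dc i = n}.Finite) (U : Finset B) :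
    Nonempty (Dat Q S U) := by
  obtain ⟨a, h1, h2, h3⟩ := exists_a Q S hS hQ U
  obtain ⟨ρ, h4, h5, h6, h7⟩ := exists_rho Q S hS hQ c dc hc hfin U
  exact ⟨⟨a, h1, h2, h3, ρ, h4, h5, h6, h7⟩⟩

variable {Q S}
variable (D : ∀ U, Dat Q S U)

/-- index set of the second basis -/
abbrev Ix2 (Q : QD I E B Λ) (S : Scal k Λ) (T : Finset (Finset B)) : Type _ :=
  Σ U : {U : Finset B // U ∈ T},
    ((Q.rst U.1).unf).Idx × (Σ n : ℤ, Fin ((Q.rst (U.1)ᶜ).hH S n))

/-- second basis -/
noncomputable def bb (p : Ix2 Q S T) : KK B Λ :=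
  Q.star p.1.1 ((D p.1.1).a p.2.1 * (D p.1.1).ρ p.2.2)

/-- degree of the elements of the second basis -/
noncomputable def deg2 (p : Ix2 Q S T) : ℤ :=
  ((Q.rst p.1.1).unf).degI p.2.1 + p.2.2.1 + Q.degK (QD.ind p.1.1)

theorem bb_hom (hS : Q.Lin S) (p : Ix2 Q S T) : S.Hom (deg2 T p) (bb T D p) :=
  star_hom Q S hS _ (hom_mul S ((D p.1.1).ah _) ((D p.1.1).rh _))

theorem a_mem (U : Finset B) (i : ((Q.rst U).unf).Idx) : (D U).a i ∈ Q.LN U := by
  rw [← (D U).as]
  exact Submodule.subset_span ⟨i, rfl⟩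

theorem aρ_mem (U : Finset B) (i : ((Q.rst U).unf).Idx) (j : Σ n : ℤ, Fin ((Q.rst Uᶜ).hH S n)) :
    (D U).a i * (D U).ρ j ∈ Q.LN U * Q.RF U :=
  Submodule.mul_mem_mul (a_mem D U i) ((D U).rm j)

include hT in
theorem bb_indep [Algebra ℚ Λ] : LinearIndependent k (bb T D) := by
  classical
  rw [linearIndependent_iff']
  intro s x hsum
  by_contra hne
  push Not at hne
  obtain ⟨p0, hp0, hx0⟩ := hne
  let s' := s.filter fun p => x p ≠ 0
  have hsum' : ∑ p ∈ s', x p • bb T D p = 0 := by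
    rw [← hsum]
    refine Finset.sum_filter_of_ne fun p _ hp => ?_
    intro h
    exact hp (by rw [h, zero_smul])
  have hp0' : p0 ∈ s' := Finset.mem_filter.2 ⟨hp0, hx0⟩
  -- the pieces
  let f : Finset B → KK B Λ := fun M => if h : M ∈ T then
    ∑ q ∈ s'.preimage (Sigma.mk (⟨M, h⟩ : {U : Finset B // U ∈ T})) sigma_mk_injective.injOn,
      x ⟨⟨M, h⟩, q⟩ • ((D M).a q.1 * (D M).ρ q.2) else 0
  have hfM : ∀ (M : Finset B) (h : M ∈ T), f M =
    ∑ q ∈ s'.preimage (Sigma.mk (⟨M, h⟩ : {U : Finset B // U ∈ T})) sigma_mk_injective.injOn,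
      x ⟨⟨M, h⟩, q⟩ • ((D M).a q.1 * (D M).ρ q.2) := fun M h => by simp only [f, dif_pos h]
  have hfmem : ∀ M ∈ T, f M ∈ Q.LN M * Q.RF M := by
    intro M hM
    rw [hfM M hM]
    exact Submodule.sum_mem _ fun q _ =>
      ksmul_mem (k := k) (Q.LN M * Q.RF M) _ (aρ_mem D M q.1 q.2)
  have htot : ∑ M ∈ T, Q.star M (f M) = 0 := by
    rw [← hsum', sum_sigma_pre s', ← Finset.sum_coe_sort T]
    refine Finset.sum_congr rfl fun u _ => ?_
    rw [hfM u.1 u.2, star_sum]
    refine Finset.sum_congr rfl fun q _ => ?_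
    rw [star_ksmul]
    rfl
  let T' := T.filter fun M => ∃ p ∈ s', p.1.1 = M
  have hT'0 : ∀ M ∈ T, M ∉ T' → Q.star M (f M) = 0 := by
    intro M hM hM'
    rw [hfM M hM]
    have : s'.preimage (Sigma.mk (⟨M, hM⟩ : {U : Finset B // U ∈ T}))
        sigma_mk_injective.injOn = ∅ := by
      rw [Finset.eq_empty_iff_forall_notMem]
      intro q hq
      rw [Finset.mem_preimage] at hq
      exact hM' (Finset.mem_filter.2 ⟨hM, _, hq, rfl⟩)
    rw [this, Finset.sum_empty, star_zero]
  have htot' : ∑ M ∈ T', Q.star M (f M) = 0 := by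
    rw [← htot]
    exact Finset.sum_subset (Finset.filter_subset _ _) hT'0
  have hT'ne : T'.Nonempty := ⟨p0.1.1, Finset.mem_filter.2 ⟨p0.1.2, p0, hp0', rfl⟩⟩
  obtain ⟨U, hU, hmin⟩ := Finset.exists_min_image T' Finset.card hT'ne
  have hUT : U ∈ T := (Finset.mem_filter.1 hU).1
  obtain ⟨p1, hp1, hp1U⟩ := (Finset.mem_filter.1 hU).2
  have key := star_indep Q T' f (fun M hM => hfmem M (Finset.mem_filter.1 hM).1) htot' U hU hmin
    (by
      intro M hM hMU σ hσ hmap
      obtain ⟨U', _, huniq⟩ := hT M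
      have e1 := huniq M ⟨(Finset.mem_filter.1 hM).1, 1, Q.W.one_mem, by
        ext b
        rw [Finset.mem_map_equiv]
        rfl⟩
      have e2 := huniq U ⟨hUT, σ, hσ, hmap⟩
      exact hMU (e1.trans e2.symm))
  let sU := s'.preimage (Sigma.mk (⟨U, hUT⟩ : {U : Finset B // U ∈ T}))
    sigma_mk_injective.injOn
  let r : ((Q.rst U).unf).Idx → KK B Λ := fun i => ∑ j ∈ sU.image Prod.snd,
    (if (i, j) ∈ sU then x ⟨⟨U, hUT⟩, (i, j)⟩ else 0) • (D U).ρ j
  have hfU : f U = ∑ i ∈ sU.image Prod.fst, (D U).a i * r i := by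
    rw [hfM U hUT, sum_prod_pre]
    refine Finset.sum_congr rfl fun i _ => ?_
    rw [Finset.mul_sum]
    refine Finset.sum_congr rfl fun j _ => ?_
    by_cases hij : (i, j) ∈ sU
    · rw [if_pos hij, if_pos hij, mul_smul_comm]
    · rw [if_neg hij, if_neg hij, zero_smul, mul_zero]
  have key2 := tensor_indep Q U (D U).a (a_mem D U) (D U).ai (by rw [(D U).as])
    (sU.image Prod.fst) r (fun i _ => Submodule.sum_mem _ fun j _ => ksmul_mem (k := k) (Q.RF U) _ ((D U).rm j))
    (by rw [← hfU]; exact key)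
  -- contradiction at `p1`
  obtain ⟨⟨V, hV⟩, q1⟩ := p1
  simp only at hp1U
  subst hp1U
  have hq1 : q1 ∈ sU := by
    rw [Finset.mem_preimage]
    exact hp1
  have h3 := key2 q1.1 (Finset.mem_image_of_mem _ hq1)
  have h4 := (D V).ri (sU.image Prod.snd)
    (fun j => if (q1.1, j) ∈ sU then x ⟨⟨V, hUT⟩, (q1.1, j)⟩ else 0) h3 q1.2
    (Finset.mem_image_of_mem _ hq1)
  simp only [Prod.mk.eta] at h4
  rw [if_pos hq1] at h4
  exact (Finset.mem_filter.1 hp1).2 h4

theorem bb_mem [Algebra ℚ Λ] (p : Ix2 Q S T) : bb T D p ∈ Q.LL :=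
  star_mem_LL Q _ (aρ_mem D _ _ _)

include hT in
/-- spanning -/
theorem star_span [Algebra ℚ Λ] : ∀ (n : ℕ) (M : Finset B), Fintype.card B - M.card = n →
    ∀ f ∈ Q.LN M * Q.RF M, Q.star M f ∈ Submodule.span k (Set.range (bb T D)) := by
  intro n
  induction n using Nat.strong_induction_on with
  | _ n ih =>
    intro M hM f hf
    obtain ⟨U, ⟨hUT, σ, hσ, hmap⟩, _⟩ := hT M
    have hf' := act_LN_RF Q σ hσ M hf
    rw [← star_conj Q σ hσ M f]
    rw [hmap] at hf' ⊢
    have hcard : U.card = M.card := by rw [← hmap, Finset.card_map]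
    rw [← hcard] at hM
    generalize act σ f = f' at hf'
    clear hf hmap hσ hcard
    -- the product of a basis element and an element of `RF`
    have h1 : ∀ i, ∀ r ∈ Q.RF U, Q.star U ((D U).a i * r) ∈
        Submodule.span k (Set.range (bb T D)) := by
      intro i r hr
      obtain ⟨y, hy, hy'⟩ := (D U).rs r hr
      have e1 : (D U).a i * r = (D U).a i * y + (D U).a i * (r - y) := by ring
      rw [e1, star_add]
      refine Submodule.add_mem _ ?_ ?_
      · refine Submodule.span_induction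
          (p := fun y _ => Q.star U ((D U).a i * y) ∈ Submodule.span k (Set.range (bb T D)))
          ?_ ?_ ?_ ?_ hy
        · rintro _ ⟨j, rfl⟩
          exact Submodule.subset_span ⟨⟨⟨U, hUT⟩, (i, j)⟩, rfl⟩
        · rw [mul_zero, star_zero]; exact Submodule.zero_mem _
        · intro a b _ _ ha hb
          rw [mul_add, star_add]; exact Submodule.add_mem _ ha hb
        · intro c a _ ha
          rw [mul_smul_comm, star_ksmul]; exact Submodule.smul_mem _ _ ha
      · have h2 := star_UF Q U (Submodule.mul_mem_mul (a_mem D U i) hy')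
        refine Submodule.iSup_induction _
          (motive := fun z => z ∈ Submodule.span k (Set.range (bb T D))) h2 ?_ ?_ ?_
        · rintro ⟨M', hM'⟩ z hz
          obtain ⟨g, hg, rfl⟩ := hz
          have hlt : Fintype.card B - M'.card < n := by
            have h3 := Finset.card_lt_card hM'
            have h4 := Finset.card_le_univ M'
            omega
          exact ih _ hlt M' rfl g hg
        · exact Submodule.zero_mem _
        · exact fun _ _ hx hy => Submodule.add_mem _ hx hy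
    refine Submodule.mul_induction_on
      (C := fun z => Q.star U z ∈ Submodule.span k (Set.range (bb T D))) hf' ?_ ?_
    · intro m hm r hr
      rw [← (D U).as] at hm
      obtain ⟨c, rfl⟩ := Finsupp.mem_span_range_iff_exists_finsupp.1 hm
      rw [Finsupp.sum, Finset.sum_mul, star_sum]
      refine Submodule.sum_mem _ fun i _ => ?_
      rw [smul_mul_assoc, ← mul_smul_comm]
      exact h1 i _ (Submodule.smul_mem _ _ hr)
    · intro a b ha hb
      rw [star_add]
      exact Submodule.add_mem _ ha hb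

include hT in
theorem bb_span [Algebra ℚ Λ] :
    Submodule.span k (Set.range (bb T D)) = Q.LL.restrictScalars k := by
  apply le_antisymm
  · rw [Submodule.span_le]
    rintro _ ⟨p, rfl⟩
    exact bb_mem T D p
  · intro x hx
    have h1 : Q.LL ≤ ⨆ U : Finset B, Submodule.map (Q.starL U) (Q.LN U * Q.RF U) := by
      refine Submodule.span_le.2 ?_
      rintro _ ⟨g, s, rfl⟩
      exact Submodule.mem_iSup_of_mem _ (hall_mem Q g s)
    refine Submodule.iSup_induction _
      (motive := fun z => z ∈ Submodule.span k (Set.range (bb T D))) (h1 hx) ?_ ?_ ?_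
    · rintro U _ ⟨g, hg, rfl⟩
      exact star_span T hT D _ U rfl g hg
    · exact Submodule.zero_mem _
    · exact fun _ _ hx hy => Submodule.add_mem _ hx hy

end fam

end H2h

end Vale.Agent.P291
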